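import Mathlib

set_option autoImplicit false

namespace Crest.Agent.R327

/-- growth of binomial coefficients above level `K` -/
theorem choose_add_le (N K a : ℕ) (hK : 1 ≤ K) (hKN : K ≤ N) :
    (N.choose (K + a) : ℝ) ≤ N.choose K * (((N : ℝ) - K) / K) ^ a := by
  have hKpos : (0 : ℝ) < K := by exact_mod_cast hK
  have hNK : (0 : ℝ) ≤ (N : ℝ) - K := by
    have : (K : ℝ) ≤ N := by exact_mod_cast hKN
    linarith
  induction a with
  | zero => simp
  | succ a ih =>
    have h1 := Nat.choose_succ_right_eq N (K + a)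
    have h1' : (N.choose (K + a + 1) : ℝ) * ((K : ℝ) + a + 1) ≤ N.choose (K + a) * ((N : ℝ) - K) := by
      have h2 : N.choose (K + a + 1) * (K + a + 1) ≤ N.choose (K + a) * (N - K) := by
        rw [h1]
        exact Nat.mul_le_mul_left _ (by omega)
      have h3 : ((N.choose (K + a + 1) * (K + a + 1) : ℕ) : ℝ) ≤
          ((N.choose (K + a) * (N - K) : ℕ) : ℝ) := by exact_mod_cast h2
      push_cast [Nat.cast_sub hKN] at h3
      exact h3
    have h4 : (N.choose (K + a + 1) : ℝ) * K ≤ N.choose (K + a) * ((N : ℝ) - K) := by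
      refine le_trans ?_ h1'
      apply mul_le_mul_of_nonneg_left _ (Nat.cast_nonneg _)
      have : (0 : ℝ) ≤ a := Nat.cast_nonneg _
      linarith
    have h5 : (N.choose (K + a + 1) : ℝ) ≤ N.choose (K + a) * (((N : ℝ) - K) / K) := by
      rw [mul_div_assoc', le_div_iff₀ hKpos]
      exact h4
    rw [← add_assoc, pow_succ, ← mul_assoc]
    exact h5.trans (mul_le_mul_of_nonneg_right ih (by positivity))

theorem choose_avoid_step (M K : ℕ) (hK : K ≤ M + 1) :
    (M.choose K : ℝ) = (M + 1).choose K * (((M : ℝ) + 1 - K) / (M + 1)) := by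
  have h1 := Nat.choose_mul_succ_eq M K
  have h2 : ((M.choose K * (M + 1) : ℕ) : ℝ) = (((M + 1).choose K * (M + 1 - K) : ℕ) : ℝ) := by
    exact_mod_cast h1
  push_cast [Nat.cast_sub hK] at h2
  have h3 : (0 : ℝ) < (M : ℝ) + 1 := by positivity
  field_simp
  linarith

theorem choose_contain_step (M K : ℕ) :
    (M.choose K : ℝ) = (M + 1).choose (K + 1) * (((K : ℝ) + 1) / (M + 1)) := by
  have h1 := Nat.add_one_mul_choose_eq M K
  have h2 : (((M + 1) * M.choose K : ℕ) : ℝ) = (((M + 1).choose (K + 1) * (K + 1) : ℕ) : ℝ) := by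
    exact_mod_cast h1
  push_cast at h2
  have h3 : (0 : ℝ) < (M : ℝ) + 1 := by positivity
  field_simp
  linarith

theorem choose_avoid_le (N N' K o : ℕ) (hN' : 1 ≤ N') (hKN : K ≤ N) (ho : N' + o ≤ N) :
    ((N - o).choose K : ℝ) ≤ N.choose K * (((N : ℝ) - K) / N') ^ o := by
  have hN'pos : (0 : ℝ) < N' := by exact_mod_cast hN'
  have hNK : (0 : ℝ) ≤ (N : ℝ) - K := by
    have : (K : ℝ) ≤ N := by exact_mod_cast hKN
    linarith
  induction o with
  | zero => simp
  | succ o ih =>
    have ih' := ih (by omega)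
    obtain ⟨M, hM⟩ : ∃ M, N - o = M + 1 := ⟨N - o - 1, by omega⟩
    have hM' : N - (o + 1) = M := by omega
    rw [hM']
    rw [hM] at ih'
    by_cases hK : K ≤ M + 1
    · rw [choose_avoid_step M K hK, pow_succ, ← mul_assoc]
      apply mul_le_mul ih' _ _ (by positivity)
      · have hMN : (M : ℝ) + 1 ≤ N := by
          have : M + 1 ≤ N := by omega
          exact_mod_cast this
        have hMN' : (N' : ℝ) ≤ (M : ℝ) + 1 := by
          have : N' ≤ M + 1 := by omega
          exact_mod_cast this
        have hKM : (K : ℝ) ≤ (M : ℝ) + 1 := by exact_mod_cast hK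
        apply div_le_div₀ hNK _ hN'pos hMN'
        linarith
      · have hKM : (K : ℝ) ≤ (M : ℝ) + 1 := by exact_mod_cast hK
        apply div_nonneg
        · linarith
        · positivity
    · rw [Nat.choose_eq_zero_of_lt (by omega)]
      simp only [Nat.cast_zero]
      positivity

theorem choose_contain_le (N' M K i : ℕ) (hN' : 1 ≤ N') (hi : N' + i ≤ M) (hK : i ≤ K) :
    ((M - i).choose (K - i) : ℝ) ≤ M.choose K * ((K : ℝ) / N') ^ i := by
  have hN'pos : (0 : ℝ) < N' := by exact_mod_cast hN'
  induction i with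
  | zero => simp
  | succ i ih =>
    have ih' := ih (by omega) (by omega)
    obtain ⟨M1, hM1⟩ : ∃ M1, M - i = M1 + 1 := ⟨M - i - 1, by omega⟩
    obtain ⟨K1, hK1⟩ : ∃ K1, K - i = K1 + 1 := ⟨K - i - 1, by omega⟩
    have e1 : M - (i + 1) = M1 := by omega
    have e2 : K - (i + 1) = K1 := by omega
    rw [e1, e2, choose_contain_step M1 K1, pow_succ, ← mul_assoc]
    rw [hM1, hK1] at ih'
    apply mul_le_mul ih' _ (by positivity) (by positivity)
    have h1 : (K1 : ℝ) + 1 ≤ K := by
      have : K1 + 1 ≤ K := by omega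
      exact_mod_cast this
    have h2 : (N' : ℝ) ≤ (M1 : ℝ) + 1 := by
      have : N' ≤ M1 + 1 := by omega
      exact_mod_cast this
    apply div_le_div₀ (by positivity) h1 hN'pos h2

/-- Upper bound for the number of `K`-subsets of an `N`-set that contain `i` given elements and
avoid `o` given ones. -/
theorem choose_both_le (N N' K i o : ℕ) (hN' : 1 ≤ N') (hKN : K ≤ N) (ho : N' + (i + o) ≤ N)
    (hK : i ≤ K) :
    ((N - o - i).choose (K - i) : ℝ) ≤
      N.choose K * (((N : ℝ) - K) / N') ^ o * ((K : ℝ) / N') ^ i := by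
  refine (choose_contain_le N' (N - o) K i hN' (by omega) hK).trans ?_
  apply mul_le_mul_of_nonneg_right _ (by positivity)
  exact choose_avoid_le N N' K o hN' hKN (by omega)

theorem choose_avoid_ge (N K k : ℕ) (hN : 1 ≤ N) (hk : K + k ≤ N) :
    (N.choose K : ℝ) * (((N : ℝ) - K - k) / N) ^ k ≤ (N - k).choose K := by
  have hNpos : (0 : ℝ) < N := by exact_mod_cast hN
  have hgen : ∀ j, j ≤ k → (N.choose K : ℝ) * (((N : ℝ) - K - k) / N) ^ j ≤ (N - j).choose K := by
    intro j
    induction j with
    | zero => intro _; simp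
    | succ j ih =>
      intro hj
      have ih' := ih (by omega)
      obtain ⟨M, hM⟩ : ∃ M, N - j = M + 1 := ⟨N - j - 1, by omega⟩
      have hM' : N - (j + 1) = M := by omega
      rw [hM'] 
      rw [hM] at ih'
      rw [choose_avoid_step M K (by omega), pow_succ, ← mul_assoc]
      have hkN : (K : ℝ) + k ≤ N := by exact_mod_cast hk
      apply mul_le_mul ih' _ _ (by positivity)
      · have h1 : (M : ℝ) + 1 ≤ N := by
          have : M + 1 ≤ N := by omega
          exact_mod_cast this
        have h2 : (N : ℝ) ≤ (M : ℝ) + 1 + k := by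
          have : N ≤ M + 1 + k := by omega
          exact_mod_cast this
        apply div_le_div₀ _ _ (by positivity) h1
        · linarith
        · linarith
      · apply div_nonneg _ hNpos.le
        linarith
  exact hgen k le_rfl

end Crest.Agent.R327
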