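import Mathlib

set_option autoImplicit false

open Matrix

namespace Crest.Agent.R327

section Trace

variable {n : Type*} [Fintype n] [DecidableEq n]

theorem trace_mul_self_eq (A : Matrix n n ℝ) (hA : A.IsHermitian) :
    Matrix.trace (A * A) = ∑ i, (hA.eigenvalues i) ^ 2 := by
  have h := hA.spectral_theorem
  set U := hA.eigenvectorUnitary
  set D : Matrix n n ℝ := diagonal (RCLike.ofReal ∘ hA.eigenvalues) with hD
  have h2 : A * A = Unitary.conjStarAlgAut ℝ _ U (D * D) := by
    rw [map_mul, ← h]
  rw [h2, Unitary.conjStarAlgAut_apply, Matrix.trace_mul_comm, ← mul_assoc]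
  have h3 : (star (U : Matrix n n ℝ)) * (U : Matrix n n ℝ) = 1 := by
    exact Unitary.coe_star_mul_self U
  rw [h3, one_mul, hD, diagonal_mul_diagonal, trace_diagonal]
  apply Finset.sum_congr rfl
  intro i _
  simp [pow_two]

/-- Second moment bound for the rank of a real symmetric matrix. -/
theorem sq_trace_le_rank_mul_of_isHermitian (A : Matrix n n ℝ) (hA : A.IsHermitian) :
    (Matrix.trace A) ^ 2 ≤ (A.rank : ℝ) * Matrix.trace (A * A) := by
  rw [trace_mul_self_eq A hA, hA.rank_eq_card_non_zero_eigs, hA.trace_eq_sum_eigenvalues]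
  have h1 : (∑ i, ((hA.eigenvalues i : ℝ) : ℝ)) =
      ∑ i ∈ Finset.univ.filter (fun i => hA.eigenvalues i ≠ 0), hA.eigenvalues i := by
    rw [Finset.sum_filter_ne_zero]
  have h2 : (∑ i, (hA.eigenvalues i) ^ 2) =
      ∑ i ∈ Finset.univ.filter (fun i => hA.eigenvalues i ≠ 0), (hA.eigenvalues i) ^ 2 := by
    symm
    apply Finset.sum_subset (Finset.filter_subset _ _)
    intro x _ hx
    simp only [Finset.mem_filter, Finset.mem_univ, true_and, not_not] at hx
    simp [hx]
  have h3 : Fintype.card {i // hA.eigenvalues i ≠ 0} =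
      (Finset.univ.filter (fun i => hA.eigenvalues i ≠ 0)).card := by
    rw [Fintype.card_subtype]
  simp only [RCLike.ofReal_real_eq_id, id_eq]
  rw [h1, h2, h3]
  exact sq_sum_le_card_mul_sum_sq

variable {m : Type*} [Fintype m]

/-- Second moment bound for the rank of a real matrix. -/
theorem sq_trace_le_rank_mul (M : Matrix m n ℝ) :
    (Matrix.trace (Mᵀ * M)) ^ 2 ≤ (M.rank : ℝ) * Matrix.trace ((Mᵀ * M) * (Mᵀ * M)) := by
  have hH : (Mᵀ * M).IsHermitian := by
    have := Matrix.isHermitian_conjTranspose_mul_self M
    simpa [Matrix.conjTranspose_eq_transpose_of_trivial] using this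
  have hr : (Mᵀ * M).rank = M.rank := Matrix.rank_transpose_mul_self M
  rw [← hr]
  exact sq_trace_le_rank_mul_of_isHermitian _ hH

end Trace

section Transfer

/-- The rank over a field of characteristic zero of a matrix with natural number entries does not
depend on the field (one inequality). -/
theorem rank_natCast_le {m n : Type*} [Fintype m] [Fintype n] (A : Matrix m n ℕ)
    (K : Type*) [Field K] [CharZero K] :
    (A.map (fun x : ℕ => (x : ℝ))).rank ≤ (A.map (fun x : ℕ => (x : K))).rank := by
  classical
  set AR : Matrix m n ℝ := A.map (fun x : ℕ => (x : ℝ)) with hAR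
  set AK : Matrix m n K := A.map (fun x : ℕ => (x : K)) with hAK
  obtain ⟨s, hs, hspan, hli⟩ := exists_linearIndependent ℝ (Set.range AR.col)
  -- choose for each vector in s a column index
  have hfin : s.Finite := (Set.finite_range AR.col).subset hs
  have := hfin.fintype
  choose f hf using fun x : s => hs x.2
  have hli' : LinearIndependent ℝ (fun x : s => AR.col (f x)) := by
    have : (fun x : s => AR.col (f x)) = (fun x : s => (x : m → ℝ)) := by
      funext x; exact hf x
    rw [this]; exact hli
  have hZ : LinearIndependent ℤ (fun x : s => fun i : m => ((A i (f x) : ℕ) : ℤ)) := by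
    rw [← linearIndependent_algebraMap_comp_iff (S := ℝ)]
    have e : (fun x : s => (algebraMap ℤ ℝ) ∘ (fun i : m => ((A i (f x) : ℕ) : ℤ))) =
        (fun x : s => AR.col (f x)) := by
      funext x i
      simp [AR, Matrix.col]
    rw [e]
    exact hli'
  have hK : LinearIndependent K (fun x : s => AK.col (f x)) := by
    have := (linearIndependent_algebraMap_comp_iff (S := K)
      (v := (fun x : s => fun i : m => ((A i (f x) : ℕ) : ℤ)))).2 hZ
    have e : (fun x : s => (algebraMap ℤ K) ∘ (fun i : m => ((A i (f x) : ℕ) : ℤ))) =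
        (fun x : s => AK.col (f x)) := by
      funext x i
      simp [AK, Matrix.col]
    rw [e] at this
    exact this
  have h1 : AR.rank = Fintype.card s := by
    rw [Matrix.rank_eq_finrank_span_cols, ← hspan]
    exact finrank_span_set_eq_card hli |>.trans (by simp)
  have h2 : Fintype.card s ≤ AK.rank := by
    rw [Matrix.rank_eq_finrank_span_cols]
    have h3 := finrank_span_eq_card hK
    rw [← h3]
    apply Submodule.finrank_mono
    apply Submodule.span_mono
    rintro _ ⟨x, rfl⟩
    exact ⟨f x, rfl⟩
  omega

end Transfer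

section Add

variable {m n K : Type*} [Fintype n] [Fintype m] [Field K]

theorem rank_add_le (A B : Matrix m n K) : (A + B).rank ≤ A.rank + B.rank := by
  classical
  rw [Matrix.rank_eq_finrank_span_cols, Matrix.rank_eq_finrank_span_cols,
    Matrix.rank_eq_finrank_span_cols]
  refine le_trans ?_ (Submodule.finrank_add_le_finrank_add_finrank _ _)
  apply Submodule.finrank_mono
  rw [Submodule.span_le]
  rintro _ ⟨x, rfl⟩
  have : (A + B).col x = A.col x + B.col x := rfl
  rw [this]
  exact Submodule.add_mem_sup (Submodule.subset_span ⟨x, rfl⟩) (Submodule.subset_span ⟨x, rfl⟩)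

theorem rank_sum_le {ι : Type*} (s : Finset ι) (A : ι → Matrix m n K) :
    (∑ i ∈ s, A i).rank ≤ ∑ i ∈ s, (A i).rank := by
  classical
  induction s using Finset.induction_on with
  | empty => simp
  | insert a s ha ih =>
    rw [Finset.sum_insert ha, Finset.sum_insert ha]
    exact (rank_add_le _ _).trans (by omega)

omit [Fintype m] in
theorem rank_smul_le (c : K) (A : Matrix m n K) : (c • A).rank ≤ A.rank := by
  classical
  have : c • A = A * (c • (1 : Matrix n n K)) := by simp
  rw [this]
  exact Matrix.rank_mul_le_left _ _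

end Add

end Crest.Agent.R327
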