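import Mathlib
import Crest.Agent.R327.RankTools

set_option autoImplicit false

open MvPolynomial

namespace Crest.Agent.R327

section Ind

variable {U : Type*} [DecidableEq U]

/-- The exponent of the squarefree monomial attached to a finite set. -/
noncomputable def ind (S : Finset U) : U →₀ ℕ :=
  Finsupp.onFinset S (fun u => if u ∈ S then 1 else 0) (by
    intro a h; by_contra h'; simp [h'] at h)

theorem ind_apply (S : Finset U) (u : U) : ind S u = if u ∈ S then 1 else 0 := rfl

theorem support_ind (S : Finset U) : (ind S).support = S := by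
  ext u; simp [ind_apply]

theorem ind_injective : Function.Injective (ind : Finset U → U →₀ ℕ) := by
  intro S T h
  rw [← support_ind S, h, support_ind T]

theorem ind_add_sdiff {S T : Finset U} (h : T ⊆ S) : ind T + ind (S \ T) = ind S := by
  ext u
  simp only [Finsupp.add_apply, ind_apply, Finset.mem_sdiff]
  by_cases h1 : u ∈ T
  · simp [h1, h h1]
  · simp [h1]

theorem of_add_eq_ind {a b : U →₀ ℕ} {S : Finset U} (h : a + b = ind S) :
    a.support ⊆ S ∧ a = ind a.support ∧ b = ind (S \ a.support) := by
  have h' : ∀ u, a u + b u = if u ∈ S then 1 else 0 := by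
    intro u
    have := congrArg (fun f : U →₀ ℕ => f u) h
    simpa [ind_apply] using this
  have h1 : a.support ⊆ S := by
    intro u hu
    by_contra hS
    have := h' u
    simp only [hS, if_false] at this
    simp only [Finsupp.mem_support_iff] at hu
    omega
  refine ⟨h1, ?_, ?_⟩
  · ext u
    have := h' u
    simp only [ind_apply, Finsupp.mem_support_iff]
    split_ifs at this ⊢ <;> omega
  · ext u
    have := h' u
    simp only [ind_apply, Finset.mem_sdiff, Finsupp.mem_support_iff]
    by_cases hu : u ∈ S
    · simp only [hu, if_true] at this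
      by_cases ha : a u = 0
      · simp [ha, hu]; omega
      · simp [ha]; omega
    · simp only [hu, if_false] at this
      simp [hu]; omega

end Ind

section Sq

variable {U K : Type*} [DecidableEq U] [Field K]

/-- Coefficient of the squarefree monomial of `S`. -/
noncomputable def sqc (f : MvPolynomial U K) (S : Finset U) : K := MvPolynomial.coeff (ind S) f

theorem sqc_add (f g : MvPolynomial U K) (S : Finset U) : sqc (f + g) S = sqc f S + sqc g S := by
  simp [sqc]

theorem sqc_smul (c : K) (f : MvPolynomial U K) (S : Finset U) : sqc (c • f) S = c * sqc f S := by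
  simp [sqc]

theorem sqc_mul (f g : MvPolynomial U K) (S : Finset U) :
    sqc (f * g) S = ∑ T ∈ S.powerset, sqc f T * sqc g (S \ T) := by
  unfold sqc
  rw [MvPolynomial.coeff_mul]
  symm
  refine Finset.sum_bij (fun (T : Finset U) _ => (ind T, ind (S \ T))) ?_ ?_ ?_ ?_
  · intro T hT
    rw [Finset.mem_powerset] at hT
    rw [Finset.HasAntidiagonal.mem_antidiagonal]
    exact ind_add_sdiff hT
  · intro T _ T' _ h
    simp only [Prod.mk.injEq] at h
    exact ind_injective h.1
  · rintro ⟨a, b⟩ hab
    rw [Finset.HasAntidiagonal.mem_antidiagonal] at hab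
    obtain ⟨h1, h2, h3⟩ := of_add_eq_ind hab
    refine ⟨a.support, Finset.mem_powerset.2 h1, ?_⟩
    rw [← h2, ← h3]
  · intro T _; rfl

end Sq

section MM

variable {U K : Type*} [Fintype U] [DecidableEq U] [Field K]

/-- Multiplication by `f` in the square-zero algebra, in the monomial basis. -/
noncomputable def mm (f : MvPolynomial U K) : Matrix (Finset U) (Finset U) K :=
  fun Z' Z => if Z ⊆ Z' then sqc f (Z' \ Z) else 0

omit [Fintype U] in
theorem mm_add (f g : MvPolynomial U K) : mm (f + g) = mm f + mm g := by
  ext Z' Z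
  simp only [mm, Matrix.add_apply, sqc_add]
  split_ifs <;> simp

omit [Fintype U] in
theorem mm_smul (c : K) (f : MvPolynomial U K) : mm (c • f) = c • mm f := by
  ext Z' Z
  simp only [mm, Matrix.smul_apply, sqc_smul, smul_eq_mul]
  split_ifs <;> simp

omit [Fintype U] in
theorem mm_zero : mm (0 : MvPolynomial U K) = 0 := by
  have := mm_smul (0 : K) (0 : MvPolynomial U K)
  simpa using this

omit [Fintype U] in
theorem mm_sum {ι : Type*} (s : Finset ι) (f : ι → MvPolynomial U K) :
    mm (∑ i ∈ s, f i) = ∑ i ∈ s, mm (f i) := by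
  classical
  induction s using Finset.induction_on with
  | empty => simp [mm_zero]
  | insert a s ha ih => rw [Finset.sum_insert ha, Finset.sum_insert ha, mm_add, ih]

theorem mm_mul (f g : MvPolynomial U K) : mm (f * g) = mm f * mm g := by
  ext Z' Z
  rw [Matrix.mul_apply]
  simp only [mm]
  by_cases hZ : Z ⊆ Z'
  · rw [if_pos hZ, sqc_mul]
    -- sum over T ⊆ Z' \ Z, intermediate set Z'' = Z' \ T
    have h1 : ∑ Z'' : Finset U, (if Z'' ⊆ Z' then sqc f (Z' \ Z'') else 0) *
        (if Z ⊆ Z'' then sqc g (Z'' \ Z) else 0) =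
        ∑ Z'' ∈ Finset.univ.filter (fun Z'' => Z'' ⊆ Z' ∧ Z ⊆ Z''),
          sqc f (Z' \ Z'') * sqc g (Z'' \ Z) := by
      rw [Finset.sum_filter]
      apply Finset.sum_congr rfl
      intro Z'' _
      by_cases ha : Z'' ⊆ Z' <;> by_cases hb : Z ⊆ Z'' <;> simp [ha, hb]
    rw [h1]
    apply Finset.sum_bij (fun (T : Finset U) _ => Z' \ T)
    · intro T hT
      simp only [Finset.mem_powerset] at hT
      simp only [Finset.mem_filter, Finset.mem_univ, true_and]
      refine ⟨Finset.sdiff_subset, ?_⟩
      intro u hu
      simp only [Finset.mem_sdiff]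
      refine ⟨hZ hu, fun h => ?_⟩
      have := hT h
      simp only [Finset.mem_sdiff] at this
      exact this.2 hu
    · intro T hT T' hT' h
      simp only [Finset.mem_powerset] at hT hT'
      have e1 : T = Z' \ (Z' \ T) := by
        rw [Finset.sdiff_sdiff_eq_self (hT.trans Finset.sdiff_subset)]
      have e2 : T' = Z' \ (Z' \ T') := by
        rw [Finset.sdiff_sdiff_eq_self (hT'.trans Finset.sdiff_subset)]
      rw [e1, e2, h]
    · intro Z'' hZ''
      simp only [Finset.mem_filter, Finset.mem_univ, true_and] at hZ''
      refine ⟨Z' \ Z'', ?_, ?_⟩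
      · simp only [Finset.mem_powerset]
        exact Finset.sdiff_subset_sdiff le_rfl hZ''.2
      · exact Finset.sdiff_sdiff_eq_self hZ''.1
    · intro T hT
      simp only [Finset.mem_powerset] at hT
      rw [Finset.sdiff_sdiff_eq_self (hT.trans Finset.sdiff_subset)]
      congr 2
      ext u
      simp only [Finset.mem_sdiff]
      tauto
  · rw [if_neg hZ]
    symm
    apply Finset.sum_eq_zero
    intro Z'' _
    by_cases ha : Z'' ⊆ Z' <;> by_cases hb : Z ⊆ Z''
    · exact absurd (hb.trans ha) hZ
    all_goals simp [ha, hb]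

end MM

end Crest.Agent.R327
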