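import Mathlib
import Crest.Agent.R327.Mult

set_option autoImplicit false
set_option linter.unusedSectionVars false

open MvPolynomial

namespace Crest.Agent.R327

section Lev

variable {U K : Type*} [Fintype U] [DecidableEq U] [Field K] (g : U → Bool)

/-- Type of a set: numbers of X-elements and of Y-elements. -/
def typ (Z : Finset U) : ℕ × ℕ :=
  ((Z.filter (fun u => g u = true)).card, (Z.filter (fun u => g u = false)).card)

omit [Fintype U] in
theorem typ_sdiff {Z Z' : Finset U} (h : Z ⊆ Z') : typ g Z' = typ g Z + typ g (Z' \ Z) := by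
  have key : ∀ b : Bool, (Z'.filter (fun u => g u = b)).card =
      (Z.filter (fun u => g u = b)).card + ((Z' \ Z).filter (fun u => g u = b)).card := by
    intro b
    rw [← Finset.card_union_of_disjoint]
    · congr 1
      rw [← Finset.filter_union, Finset.union_sdiff_of_subset h]
    · apply Finset.disjoint_filter_filter
      exact Finset.disjoint_sdiff
  unfold typ
  rw [key true, key false]
  rfl

omit [Fintype U] in
theorem typ_sum (Z : Finset U) : (typ g Z).1 + (typ g Z).2 = Z.card := by
  unfold typ
  simp only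
  have : (Z.filter (fun u => g u = false)) = Z.filter (fun u => ¬ (g u = true)) := by
    apply Finset.filter_congr
    intro u _
    simp
  rw [this]
  exact Finset.card_filter_add_card_filter_not _

/-- Level sets. -/
abbrev Lev (A : ℕ × ℕ) := {Z : Finset U // typ g Z = A}

/-- Block of the multiplication matrix from level `A` to level `B`. -/
noncomputable def blk (f : MvPolynomial U K) (A B : ℕ × ℕ) : Matrix (Lev g B) (Lev g A) K :=
  (mm f).submatrix Subtype.val Subtype.val

theorem blk_apply (f : MvPolynomial U K) (A B : ℕ × ℕ) (Z' : Lev g B) (Z : Lev g A) :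
    blk g f A B Z' Z = mm f Z'.1 Z.1 := rfl

theorem blk_add (f h : MvPolynomial U K) (A B : ℕ × ℕ) :
    blk g (f + h) A B = blk g f A B + blk g h A B := by
  ext; simp [blk_apply, mm_add]

theorem blk_smul (c : K) (f : MvPolynomial U K) (A B : ℕ × ℕ) :
    blk g (c • f) A B = c • blk g f A B := by
  ext; simp [blk_apply, mm_smul]

theorem blk_sum {ι : Type*} (s : Finset ι) (f : ι → MvPolynomial U K) (A B : ℕ × ℕ) :
    blk g (∑ i ∈ s, f i) A B = ∑ i ∈ s, blk g (f i) A B := by
  ext
  simp [blk_apply, mm_sum, Matrix.sum_apply]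

/-- All squarefree monomials occurring in `h` have type `T`. -/
def HasType (h : MvPolynomial U K) (T : ℕ × ℕ) : Prop := ∀ S, sqc h S ≠ 0 → typ g S = T

variable {g}

omit [Fintype U] in
theorem typ_of_mm_ne_zero {h : MvPolynomial U K} {T : ℕ × ℕ} (hT : HasType g h T)
    {Z' Z : Finset U} (hne : mm h Z' Z ≠ 0) : typ g Z' = typ g Z + T := by
  unfold mm at hne
  split_ifs at hne with h1
  · rw [typ_sdiff g h1, hT _ hne]
  · exact absurd rfl hne

omit [Fintype U] in
theorem subset_of_mm_ne_zero {h : MvPolynomial U K}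
    {Z' Z : Finset U} (hne : mm h Z' Z ≠ 0) : Z ⊆ Z' := by
  unfold mm at hne
  split_ifs at hne with h1
  · exact h1
  · exact absurd rfl hne

theorem sum_lev (A : ℕ × ℕ) (F : Finset U → K) (hF : ∀ Z, F Z ≠ 0 → typ g Z = A) :
    ∑ Z, F Z = ∑ Z : Lev g A, F Z.1 := by
  classical
  rw [← Finset.sum_subtype (Finset.univ.filter (fun Z : Finset U => typ g Z = A)) (by simp) F]
  symm
  apply Finset.sum_subset (Finset.filter_subset _ _)
  intro Z _ hZ
  by_contra hne
  exact hZ (by simp [hF Z hne])

theorem blk_mul_first (f h : MvPolynomial U K) {T : ℕ × ℕ} (hT : HasType g h T) (A B : ℕ × ℕ) :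
    blk g (f * h) A B = blk g f (A + T) B * blk g h A (A + T) := by
  ext Z' Z
  rw [Matrix.mul_apply, blk_apply, mm_mul, Matrix.mul_apply]
  rw [sum_lev (g := g) (A + T)]
  · rfl
  · intro Z'' hne
    have := right_ne_zero_of_mul hne
    rw [typ_of_mm_ne_zero hT this, Z.2]

theorem blk_mul_last (f h : MvPolynomial U K) {T : ℕ × ℕ} (hT : HasType g h T) (A B : ℕ × ℕ) :
    blk g (h * f) A (B + T) = blk g h B (B + T) * blk g f A B := by
  ext Z' Z
  rw [Matrix.mul_apply, blk_apply, mm_mul, Matrix.mul_apply]
  rw [sum_lev (g := g) B]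
  · rfl
  · intro Z'' hne
    have := left_ne_zero_of_mul hne
    have h1 := typ_of_mm_ne_zero hT this
    rw [Z'.2] at h1
    exact (add_right_cancel h1).symm

theorem blk_eq_zero_of_not_le_type (f h : MvPolynomial U K) {T : ℕ × ℕ} (hT : HasType g h T)
    (A B : ℕ × ℕ) (hB : ¬ T ≤ B) : blk g (h * f) A B = 0 := by
  ext Z' Z
  rw [blk_apply, mm_mul, Matrix.mul_apply, Matrix.zero_apply]
  apply Finset.sum_eq_zero
  intro Z'' _
  by_contra hne
  have h1 := typ_of_mm_ne_zero hT (left_ne_zero_of_mul hne)
  rw [Z'.2] at h1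
  apply hB
  rw [h1]
  exact le_add_self

theorem blk_eq_zero_of_not_le (f : MvPolynomial U K) (A B : ℕ × ℕ) (hB : ¬ A ≤ B) :
    blk g f A B = 0 := by
  ext Z' Z
  rw [blk_apply, Matrix.zero_apply]
  by_contra hne
  have h1 := subset_of_mm_ne_zero hne
  have h2 := typ_sdiff g h1
  rw [Z'.2, Z.2] at h2
  apply hB
  rw [h2]
  exact le_self_add

end Lev

theorem degree_of_coeff_ne_zero {U K : Type*} [Field K] {Q : MvPolynomial U K} {d : ℕ}
    (hQ : Q.IsHomogeneous d) {m : U →₀ ℕ} (h : coeff m Q ≠ 0) : m.degree = d := by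
  by_contra hne
  exact h (hQ.coeff_eq_zero hne)

section Comp

variable {U K : Type*} [Fintype U] [DecidableEq U] [Field K] (g : U → Bool)

/-- The weight counting X-variables. -/
def wX (u : U) : ℕ := if g u = true then 1 else 0

omit [Fintype U] in
theorem weight_ind (S : Finset U) : Finsupp.weight (wX g) (ind S) = (typ g S).1 := by
  rw [Finsupp.weight_apply, Finsupp.sum, support_ind]
  unfold typ
  simp only [ind_apply, wX, smul_eq_mul]
  rw [Finset.card_filter]
  apply Finset.sum_congr rfl
  intro u hu
  simp [hu]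

omit [Fintype U] in
theorem degree_ind (S : Finset U) : (ind S).degree = S.card := by
  rw [Finsupp.degree_apply, support_ind, Finset.card_eq_sum_ones]
  apply Finset.sum_congr rfl
  intro u hu
  simp [ind_apply, hu]

omit [Fintype U] [DecidableEq U] in
theorem weight_le_degree (m : U →₀ ℕ) : Finsupp.weight (wX g) m ≤ m.degree := by
  rw [Finsupp.weight_apply, Finsupp.degree_apply, Finsupp.sum]
  apply Finset.sum_le_sum
  intro u _
  simp only [wX, smul_eq_mul]
  split_ifs <;> simp

omit [Fintype U] in
/-- The bihomogeneous components of a homogeneous polynomial have a type. -/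
theorem hasType_component {Q : MvPolynomial U K} {d : ℕ} (hQ : Q.IsHomogeneous d) (k : ℕ) :
    HasType g (weightedHomogeneousComponent (wX g) k Q) (k, d - k) := by
  classical
  intro S hS
  unfold sqc at hS
  rw [coeff_weightedHomogeneousComponent] at hS
  split_ifs at hS with h1
  · rw [weight_ind] at h1
    have h2 := degree_of_coeff_ne_zero hQ hS
    rw [degree_ind] at h2
    have h3 := typ_sum g S
    ext
    · exact h1
    · simp only
      omega
  · exact absurd rfl hS

omit [Fintype U] in
theorem eq_sum_component {Q : MvPolynomial U K} {d : ℕ} (hQ : Q.IsHomogeneous d) :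
    Q = ∑ k ∈ Finset.range (d + 1), weightedHomogeneousComponent (wX g) k Q := by
  classical
  ext m
  rw [MvPolynomial.coeff_sum]
  simp only [coeff_weightedHomogeneousComponent]
  rw [Finset.sum_ite_eq]
  split_ifs with h
  · rfl
  · by_contra hne
    apply h
    rw [Finset.mem_range]
    have h2 := degree_of_coeff_ne_zero hQ hne
    have h3 := weight_le_degree g m
    omega

end Comp

end Crest.Agent.R327
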