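import Mathlib
import Crest.Agent.R327.Blocks

set_option autoImplicit false
set_option linter.unusedSectionVars false

open MvPolynomial

namespace Crest.Agent.R327

/-- `min (√θ) (1/√θ)` for `θ = x^k y^e`. -/
noncomputable def sval (x y : ℝ) (k e : ℕ) : ℝ :=
  min (√(x ^ k * y ^ e)) (√(x ^ k * y ^ e))⁻¹

/-- Sum of `sval` over the bidegrees of total degree `d`. -/
noncomputable def Sd (x y : ℝ) (d : ℕ) : ℝ := ∑ k ∈ Finset.range (d + 1), sval x y k (d - k)

/-- Weight of a level. -/
noncomputable def Wt (w0 x y : ℝ) (A : ℕ × ℕ) : ℝ := w0 * x ^ A.1 * y ^ A.2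

theorem sval_nonneg (x y : ℝ) (k e : ℕ) : 0 ≤ sval x y k e :=
  le_min (Real.sqrt_nonneg _) (inv_nonneg.2 (Real.sqrt_nonneg _))

theorem Sd_nonneg (x y : ℝ) (d : ℕ) : 0 ≤ Sd x y d :=
  Finset.sum_nonneg (fun _ _ => sval_nonneg _ _ _ _)

theorem Wt_add (w0 x y : ℝ) (A T : ℕ × ℕ) :
    Wt w0 x y (A + T) = Wt w0 x y A * (x ^ T.1 * y ^ T.2) := by
  unfold Wt
  simp only [Prod.fst_add, Prod.snd_add, pow_add]
  ring

section Main

variable {U K : Type*} [Fintype U] [DecidableEq U] [Field K] {g : U → Bool}

theorem rank_first (f h : MvPolynomial U K) {T : ℕ × ℕ} (hT : HasType g h T) (A B : ℕ × ℕ) :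
    (blk g (h * f) A B).rank ≤ (blk g f (A + T) B).rank := by
  rw [mul_comm h f, blk_mul_first f h hT A B]
  exact Matrix.rank_mul_le_left _ _

theorem rank_last (f h : MvPolynomial U K) {T : ℕ × ℕ} (hT : HasType g h T) (A B : ℕ × ℕ) :
    (blk g (h * f) A (B + T)).rank ≤ (blk g f A B).rank := by
  rw [blk_mul_last f h hT A B]
  exact Matrix.rank_mul_le_right _ _

theorem rank_prod_le {w0 x y : ℝ} (hx : 0 < x) (hy : 0 < y) (hw : 0 ≤ w0) (A0 : ℕ × ℕ)
    (hcard : ∀ A : ℕ × ℕ, A0 ≤ A → (Fintype.card (Lev g A) : ℝ) ≤ Wt w0 x y A)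
    (l : List (MvPolynomial U K × ℕ)) :
    (∀ p ∈ l, p.1.IsHomogeneous p.2) →
    ∀ (f : MvPolynomial U K) (A B : ℕ × ℕ), A0 ≤ A → A0 ≤ B →
      ((blk g (f * (l.map Prod.fst).prod) A B).rank : ℝ) ≤
        √(Wt w0 x y A * Wt w0 x y B) * (l.map (fun p => Sd x y p.2)).prod := by
  have hWnn : ∀ A, 0 ≤ Wt w0 x y A := by
    intro A; unfold Wt; positivity
  induction l with
  | nil =>
    intro _ f A B hA hB
    simp only [List.map_nil, List.prod_nil, mul_one]
    have h1 : ((blk g f A B).rank : ℝ) ≤ Wt w0 x y A := by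
      refine le_trans ?_ (hcard A hA)
      exact_mod_cast Matrix.rank_le_card_width _
    have h2 : ((blk g f A B).rank : ℝ) ≤ Wt w0 x y B := by
      refine le_trans ?_ (hcard B hB)
      exact_mod_cast Matrix.rank_le_card_height _
    apply Real.le_sqrt_of_sq_le
    rw [pow_two]
    exact mul_le_mul h1 h2 (Nat.cast_nonneg _) (hWnn A)
  | cons p l ih =>
    intro hl f A B hA hB
    obtain ⟨Q, d⟩ := p
    have hQ : Q.IsHomogeneous d := hl (Q, d) (by simp)
    have hl' : ∀ p ∈ l, p.1.IsHomogeneous p.2 := fun p hp => hl p (by simp [hp])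
    have ih' := ih hl' f
    set P := (l.map Prod.fst).prod with hP
    set PP := (l.map (fun p => Sd x y p.2)).prod with hPP
    have hPPnn : 0 ≤ PP := by
      apply List.prod_nonneg
      intro a ha
      simp only [List.mem_map] at ha
      obtain ⟨q, _, rfl⟩ := ha
      exact Sd_nonneg _ _ _
    simp only [List.map_cons, List.prod_cons]
    rw [← hP, ← hPP]
    -- decompose
    have hdec : f * (Q * P) =
        ∑ k ∈ Finset.range (d + 1), weightedHomogeneousComponent (wX g) k Q * (f * P) := by
      rw [← Finset.sum_mul, ← eq_sum_component g hQ]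
      ring
    rw [hdec, blk_sum]
    have hterm : ∀ k ∈ Finset.range (d + 1),
        ((blk g (weightedHomogeneousComponent (wX g) k Q * (f * P)) A B).rank : ℝ) ≤
          √(Wt w0 x y A * Wt w0 x y B) * sval x y k (d - k) * PP := by
      intro k _
      set C := weightedHomogeneousComponent (wX g) k Q with hC
      have hT : HasType g C (k, d - k) := hasType_component g hQ k
      set θ : ℝ := x ^ k * y ^ (d - k) with hθ
      have hθpos : 0 < θ := by positivity
      have hrhs : 0 ≤ √(Wt w0 x y A * Wt w0 x y B) * sval x y k (d - k) * PP := by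
        have := sval_nonneg x y k (d - k)
        positivity
      by_cases h1 : θ ≤ 1
      · -- first
        have e2 : ((blk g (C * (f * P)) A B).rank : ℝ) ≤
            √(Wt w0 x y (A + (k, d - k)) * Wt w0 x y B) * PP :=
          le_trans (Nat.cast_le.2 (rank_first (f * P) C hT A B))
            (ih' (A + (k, d - k)) B (hA.trans le_self_add) hB)
        refine e2.trans (le_of_eq ?_)
        have e3 : sval x y k (d - k) = √θ := by
          unfold sval
          rw [← hθ]
          apply min_eq_left
          have h3 : √θ ≤ 1 := by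
            rw [← Real.sqrt_one]; exact Real.sqrt_le_sqrt h1
          have h4 : 0 < √θ := Real.sqrt_pos.2 hθpos
          calc √θ ≤ 1 := h3
            _ ≤ (√θ)⁻¹ := (one_le_inv₀ h4).2 h3
        rw [e3, Wt_add]
        simp only
        rw [← hθ]
        rw [show Wt w0 x y A * θ * Wt w0 x y B = (Wt w0 x y A * Wt w0 x y B) * θ by ring]
        rw [Real.sqrt_mul (mul_nonneg (hWnn A) (hWnn B))]
      · -- last
        push Not at h1
        by_cases h2 : (k, d - k) ≤ B
        · obtain ⟨B', hB'⟩ : ∃ B', B = B' + (k, d - k) := by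
            obtain ⟨B', hB'⟩ := exists_add_of_le h2
            exact ⟨B', by rw [hB', add_comm]⟩
          subst hB'
          have e1 := rank_last (f * P) C hT A B'
          by_cases h3 : A ≤ B'
          · have e2 : ((blk g (C * (f * P)) A (B' + (k, d - k))).rank : ℝ) ≤
                √(Wt w0 x y A * Wt w0 x y B') * PP :=
              le_trans (Nat.cast_le.2 e1) (ih' A B' hA (hA.trans h3))
            refine e2.trans (le_of_eq ?_)
            have e3 : sval x y k (d - k) = (√θ)⁻¹ := by
              unfold sval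
              rw [← hθ]
              apply min_eq_right
              have h3 : 1 ≤ √θ := by
                rw [← Real.sqrt_one]; exact Real.sqrt_le_sqrt h1.le
              exact (inv_le_one_of_one_le₀ h3).trans h3
            rw [e3, Wt_add]
            simp only
            rw [← hθ]
            rw [show Wt w0 x y A * (Wt w0 x y B' * θ) = (Wt w0 x y A * Wt w0 x y B') * θ by ring]
            rw [Real.sqrt_mul (mul_nonneg (hWnn A) (hWnn B'))]
            have h4 : √θ ≠ 0 := (Real.sqrt_pos.2 hθpos).ne'
            field_simp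
          · have e4 : (blk g (f * P) A B').rank = 0 := by
              rw [blk_eq_zero_of_not_le _ _ _ h3, Matrix.rank_zero]
            have e5 : (blk g (C * (f * P)) A (B' + (k, d - k))).rank = 0 := by omega
            rw [e5]
            simpa using hrhs
        · rw [blk_eq_zero_of_not_le_type _ _ hT A B h2, Matrix.rank_zero]
          simpa using hrhs
    calc ((∑ k ∈ Finset.range (d + 1),
            blk g (weightedHomogeneousComponent (wX g) k Q * (f * P)) A B).rank : ℝ)
        ≤ ((∑ k ∈ Finset.range (d + 1),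
            (blk g (weightedHomogeneousComponent (wX g) k Q * (f * P)) A B).rank : ℕ) : ℝ) := by
          exact_mod_cast rank_sum_le _ _
      _ = ∑ k ∈ Finset.range (d + 1),
            ((blk g (weightedHomogeneousComponent (wX g) k Q * (f * P)) A B).rank : ℝ) := by
          push_cast; rfl
      _ ≤ ∑ k ∈ Finset.range (d + 1), √(Wt w0 x y A * Wt w0 x y B) * sval x y k (d - k) * PP :=
          Finset.sum_le_sum hterm
      _ = √(Wt w0 x y A * Wt w0 x y B) * (Sd x y d * PP) := by
          unfold Sd
          rw [Finset.sum_mul, Finset.mul_sum]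
          apply Finset.sum_congr rfl
          intro k _
          ring

end Main

end Crest.Agent.R327
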