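import Mathlib
import Crest.Prelude.Def_SPSPS
import Crest.Agent.R327.UpperRank

set_option autoImplicit false
set_option linter.unusedSectionVars false

namespace Crest.Agent.R327

open MvPolynomial

section Hom

variable {σ K : Type*} [Field K]

theorem multiset_prod_hom {α : Type*} (s : Multiset α) (f : α → MvPolynomial σ K) (d : α → ℕ)
    (h : ∀ a ∈ s, (f a).IsHomogeneous (d a)) : (s.map f).prod.IsHomogeneous (s.map d).sum := by
  induction s using Multiset.induction_on with
  | empty => simpa using isHomogeneous_one σ K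
  | cons a s ih =>
    rw [Multiset.map_cons, Multiset.prod_cons, Multiset.map_cons, Multiset.sum_cons]
    exact (h a (Multiset.mem_cons_self a s)).mul
      (ih (fun b hb => h b (Multiset.mem_cons_of_mem hb)))

theorem smul_hom {f : MvPolynomial σ K} {d : ℕ} (c : K) (h : f.IsHomogeneous d) :
    (c • f).IsHomogeneous d := by
  rw [MvPolynomial.smul_eq_C_mul]
  exact h.C_mul c

end Hom

section Circ

open Crest.ArithCircuit

variable {K ι L B P S R : Type*} [Field K] (C : SPSPS K ι L B P S R)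

theorem leafVal_hom (l : L) : (C.leafVal l).IsHomogeneous (C.leafDeg l) := by
  unfold SPSPS.leafVal SPSPS.leafDeg
  cases h : C.leaf l with
  | inl i => simpa [h] using isHomogeneous_X K i
  | inr c => simpa [h] using isHomogeneous_C ι c

theorem valB_hom (hC : C.IsHomogeneous) (b : B) : (C.valB b).IsHomogeneous (C.degB b) := by
  unfold SPSPS.valB
  apply IsHomogeneous.sum
  intro l hl
  apply smul_hom
  rw [← hC.1 b l hl]
  exact leafVal_hom C l

theorem degB_le (b : B) : C.degB b ≤ 1 := by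
  unfold SPSPS.degB
  apply Finset.sup_le
  intro l _
  unfold SPSPS.leafDeg
  cases C.leaf l <;> simp

theorem valP_hom (hC : C.IsHomogeneous) (p : P) : (C.valP p).IsHomogeneous (C.degP p) :=
  multiset_prod_hom _ _ _ (fun b _ => valB_hom C hC b)

theorem valS_hom (hC : C.IsHomogeneous) (s : S) : (C.valS s).IsHomogeneous (C.degS s) := by
  unfold SPSPS.valS
  apply IsHomogeneous.sum
  intro p hp
  apply smul_hom
  rw [← hC.2.1 s p hp]
  exact valP_hom C hC p

theorem valR_hom (hC : C.IsHomogeneous) (r : R) : (C.valR r).IsHomogeneous (C.degR r) :=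
  multiset_prod_hom _ _ _ (fun s _ => valS_hom C hC s)

theorem output_hom (hC : C.IsHomogeneous) : C.output.IsHomogeneous C.degOut := by
  unfold SPSPS.output
  apply IsHomogeneous.sum
  intro r hr
  apply smul_hom
  rw [← hC.2.2 r hr]
  exact valR_hom C hC r

end Circ

section Merge

variable {U K : Type*} [Field K]

theorem merge (Λ : ℕ) (M : Multiset (MvPolynomial U K × ℕ))
    (hM : ∀ p ∈ M, p.1.IsHomogeneous p.2 ∧ p.2 ≤ Λ) :
    ∃ (q : MvPolynomial U K × ℕ) (l : List (MvPolynomial U K × ℕ)),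
      q.1.IsHomogeneous q.2 ∧ 2 * q.2 ≤ Λ ∧
      (∀ p ∈ l, p.1.IsHomogeneous p.2 ∧ p.2 ≤ Λ ∧ Λ < 2 * p.2) ∧
      q.1 * (l.map Prod.fst).prod = (M.map Prod.fst).prod ∧
      q.2 + (l.map Prod.snd).sum = (M.map Prod.snd).sum := by
  induction M using Multiset.induction_on with
  | empty =>
    refine ⟨(1, 0), [], isHomogeneous_one _ _, by simp, by simp, by simp, by simp⟩
  | cons a M ih =>
    obtain ⟨q, l, h1, h2, h3, h4, h5⟩ := ih (fun p hp => hM p (Multiset.mem_cons_of_mem hp))
    obtain ⟨Q, d⟩ := a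
    have hQ := hM (Q, d) (Multiset.mem_cons_self _ _)
    simp only at hQ
    by_cases hd : Λ < 2 * d
    · refine ⟨q, (Q, d) :: l, h1, h2, ?_, ?_, ?_⟩
      · intro p hp
        rcases List.mem_cons.1 hp with rfl | hp
        · exact ⟨hQ.1, hQ.2, hd⟩
        · exact h3 p hp
      · simp only [List.map_cons, List.prod_cons, Multiset.map_cons, Multiset.prod_cons]
        rw [← h4]; ring
      · simp only [List.map_cons, List.sum_cons, Multiset.map_cons, Multiset.sum_cons]
        omega
    · by_cases hd2 : 2 * (d + q.2) ≤ Λ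
      · refine ⟨(Q * q.1, d + q.2), l, hQ.1.mul h1, hd2, h3, ?_, ?_⟩
        · simp only [Multiset.map_cons, Multiset.prod_cons]
          rw [← h4]; ring
        · simp only [Multiset.map_cons, Multiset.sum_cons]
          omega
      · refine ⟨(1, 0), (Q * q.1, d + q.2) :: l, isHomogeneous_one _ _, by simp, ?_, ?_, ?_⟩
        · intro p hp
          rcases List.mem_cons.1 hp with rfl | hp
          · refine ⟨hQ.1.mul h1, ?_, ?_⟩
            · simp only; omega
            · simp only; omega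
          · exact h3 p hp
        · simp only [List.map_cons, List.prod_cons, Multiset.map_cons, Multiset.prod_cons]
          rw [← h4]; ring
        · simp only [List.map_cons, List.sum_cons, Multiset.map_cons, Multiset.sum_cons]
          omega

theorem length_le_of_big (Λ : ℕ) (l : List (MvPolynomial U K × ℕ))
    (h : ∀ p ∈ l, Λ < 2 * p.2) : l.length * (Λ + 1) ≤ 2 * (l.map Prod.snd).sum := by
  induction l with
  | nil => simp
  | cons p l ih =>
    have h1 := h p (by simp)
    have h2 := ih (fun p hp => h p (by simp [hp]))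
    simp only [List.length_cons, List.map_cons, List.sum_cons]
    nlinarith

theorem prod_Sd_le {x y γi : ℝ} {Λ : ℕ} (hγ : 0 ≤ γi)
    (hS : ∀ d ≤ Λ, Sd x y d ≤ 6 * γi ^ d) (l : List (MvPolynomial U K × ℕ))
    (hl : ∀ p ∈ l, p.2 ≤ Λ) :
    (l.map (fun p => Sd x y p.2)).prod ≤ 6 ^ l.length * γi ^ (l.map Prod.snd).sum := by
  induction l with
  | nil => simp
  | cons p l ih =>
    have h1 := hS p.2 (hl p (by simp))
    have h2 := ih (fun p hp => hl p (by simp [hp]))
    simp only [List.map_cons, List.prod_cons, List.length_cons, List.sum_cons]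
    have h3 : 0 ≤ (l.map (fun p => Sd x y p.2)).prod := by
      apply List.prod_nonneg
      intro a ha
      simp only [List.mem_map] at ha
      obtain ⟨q, _, rfl⟩ := ha
      exact Sd_nonneg _ _ _
    calc Sd x y p.2 * (l.map (fun p => Sd x y p.2)).prod
        ≤ (6 * γi ^ p.2) * (6 ^ l.length * γi ^ (l.map Prod.snd).sum) := by
          apply mul_le_mul h1 h2 h3 (by positivity)
      _ = _ := by rw [pow_succ, pow_add]; ring

end Merge

section Gate

open Crest.ArithCircuit

variable {V U K L B P S R : Type*} [Field K] [Fintype U] [DecidableEq U] {g : U → Bool}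
  [Fintype P] [Fintype R]

theorem rank_low {w0 x y γi : ℝ} {Λ : ℕ} (hx : 0 < x) (hy : 0 < y) (hw : 0 ≤ w0) (A0 : ℕ × ℕ)
    (hcard : ∀ A : ℕ × ℕ, A0 ≤ A → (Fintype.card (Lev g A) : ℝ) ≤ Wt w0 x y A)
    (hγ : 0 ≤ γi) (hS : ∀ d ≤ Λ, Sd x y d ≤ 6 * γi ^ d)
    (M : Multiset (MvPolynomial U K × ℕ))
    (hM : ∀ p ∈ M, p.1.IsHomogeneous p.2 ∧ p.2 ≤ Λ) (B' : ℕ × ℕ) (hB : A0 ≤ B') :
    ((blk g (M.map Prod.fst).prod A0 B').rank : ℝ) ≤
      √(Wt w0 x y A0 * Wt w0 x y B') *
        (6 ^ (2 * (M.map Prod.snd).sum / (Λ + 1) + 1) * γi ^ (M.map Prod.snd).sum) := by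
  obtain ⟨q, l, h1, h2, h3, h4, h5⟩ := merge Λ M hM
  have h6 := rank_prod_le hx hy hw A0 hcard (q :: l) (by
    intro p hp
    rcases List.mem_cons.1 hp with rfl | hp
    · exact h1
    · exact (h3 p hp).1) (1 : MvPolynomial U K) A0 B' le_rfl hB
  have e1 : (1 : MvPolynomial U K) * ((q :: l).map Prod.fst).prod = (M.map Prod.fst).prod := by
    rw [one_mul, List.map_cons, List.prod_cons, h4]
  rw [e1] at h6
  refine h6.trans ?_
  apply mul_le_mul_of_nonneg_left _ (Real.sqrt_nonneg _)
  refine (prod_Sd_le hγ hS (q :: l) ?_).trans ?_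
  · intro p hp
    rcases List.mem_cons.1 hp with rfl | hp
    · omega
    · exact (h3 p hp).2.1
  · have e2 : ((q :: l).map Prod.snd).sum = (M.map Prod.snd).sum := by
      rw [List.map_cons, List.sum_cons, h5]
    rw [e2]
    apply mul_le_mul_of_nonneg_right _ (by positivity)
    apply pow_le_pow_right₀ (by norm_num)
    rw [List.length_cons]
    apply Nat.succ_le_succ
    rw [Nat.le_div_iff_mul_le (by omega)]
    refine (length_le_of_big Λ l (fun p hp => (h3 p hp).2.2)).trans ?_
    omega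

theorem rank_high {w0 x y s1 : ℝ} {Λ : ℕ} (hx : 0 < x) (hy : 0 < y) (hw : 0 ≤ w0) (A0 : ℕ × ℕ)
    (hcard : ∀ A : ℕ × ℕ, A0 ≤ A → (Fintype.card (Lev g A) : ℝ) ≤ Wt w0 x y A)
    (hs1 : s1 ≤ 1) (h0 : Sd x y 0 ≤ 1) (h1 : Sd x y 1 ≤ s1)
    {α : Type*} (M : Multiset α) (f : α → MvPolynomial U K) (d : α → ℕ)
    (hM : ∀ a ∈ M, (f a).IsHomogeneous (d a) ∧ d a ≤ 1) (hΛ : Λ ≤ (M.map d).sum)
    (B' : ℕ × ℕ) (hB : A0 ≤ B') (G : MvPolynomial U K) :
    ((blk g (G * (M.map f).prod) A0 B').rank : ℝ) ≤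
      √(Wt w0 x y A0 * Wt w0 x y B') * s1 ^ Λ := by
  have hs1nn : 0 ≤ s1 := (Sd_nonneg _ _ _).trans h1
  have key : ∀ l : List α, (∀ a ∈ l, d a ≤ 1) →
      (l.map (fun a => Sd x y (d a))).prod ≤ s1 ^ (l.map d).sum := by
    intro l
    induction l with
    | nil => intro _; simp
    | cons a l ih =>
      intro hl
      have ih' := ih (fun b hb => hl b (by simp [hb]))
      simp only [List.map_cons, List.prod_cons, List.sum_cons]
      rw [pow_add]
      have h3 : 0 ≤ (l.map (fun a => Sd x y (d a))).prod := by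
        apply List.prod_nonneg
        intro a ha
        simp only [List.mem_map] at ha
        obtain ⟨q, _, rfl⟩ := ha
        exact Sd_nonneg _ _ _
      apply mul_le_mul _ ih' h3 (by positivity)
      have h4 := hl a (by simp)
      interval_cases h : d a
      · simpa using h0
      · simpa using h1
  have h6 := rank_prod_le hx hy hw A0 hcard (M.toList.map (fun a => (f a, d a))) (by
    intro p hp
    simp only [List.mem_map] at hp
    obtain ⟨a, ha, rfl⟩ := hp
    exact (hM a (Multiset.mem_toList.1 ha)).1) G A0 B' le_rfl hB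
  have e1 : ((M.toList.map (fun a => (f a, d a))).map Prod.fst).prod = (M.map f).prod := by
    rw [List.map_map]
    conv_rhs => rw [← Multiset.coe_toList M, Multiset.map_coe, Multiset.prod_coe]
    rfl
  have e2 : (M.toList.map d).sum = (M.map d).sum := by
    conv_rhs => rw [← Multiset.coe_toList M, Multiset.map_coe, Multiset.sum_coe]
  rw [e1] at h6
  refine h6.trans ?_
  apply mul_le_mul_of_nonneg_left _ (Real.sqrt_nonneg _)
  rw [List.map_map]
  have h7 := key M.toList (fun a ha => (hM a (Multiset.mem_toList.1 ha)).2)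
  rw [e2] at h7
  refine le_trans h7 ?_
  exact pow_le_pow_of_le_one hs1nn hs1 hΛ

theorem rank_gate {w0 x y γi s1 : ℝ} {Λ : ℕ} (hx : 0 < x) (hy : 0 < y) (hw : 0 ≤ w0)
    (A0 : ℕ × ℕ)
    (hcard : ∀ A : ℕ × ℕ, A0 ≤ A → (Fintype.card (Lev g A) : ℝ) ≤ Wt w0 x y A)
    (hγ : 0 ≤ γi) (hS : ∀ d ≤ Λ, Sd x y d ≤ 6 * γi ^ d)
    (hs1 : s1 ≤ 1) (h0 : Sd x y 0 ≤ 1) (h1 : Sd x y 1 ≤ s1)
    (emb : V → U) (C : SPSPS K V L B P S R) (hC : C.IsHomogeneous) (r : R)
    (B' : ℕ × ℕ) (hB : A0 ≤ B') :
    ((blk g (rename emb (C.valR r)) A0 B').rank : ℝ) ≤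
      √(Wt w0 x y A0 * Wt w0 x y B') *
        (6 ^ (2 * C.degR r / (Λ + 1) + 1) * γi ^ (C.degR r) +
          (Fintype.card P : ℝ) * s1 ^ (Λ + 1)) := by
  classical
  have hs1nn : 0 ≤ s1 := (Sd_nonneg _ _ _).trans h1
  by_cases hlow : ∀ s ∈ C.inR r, C.degS s ≤ Λ
  · have h2 := rank_low hx hy hw A0 hcard hγ hS
      ((C.inR r).map (fun s => ((rename emb (C.valS s) : MvPolynomial U K), C.degS s))) (by
        intro p hp
        rw [Multiset.mem_map] at hp
        obtain ⟨s, hs, rfl⟩ := hp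
        exact ⟨(valS_hom C hC s).rename_isHomogeneous, hlow s hs⟩) B' hB
    have e1 : (((C.inR r).map (fun s => ((rename emb (C.valS s) : MvPolynomial U K),
        C.degS s))).map Prod.fst).prod = rename emb (C.valR r) := by
      rw [Multiset.map_map]
      unfold SPSPS.valR
      rw [map_multiset_prod, Multiset.map_map]
      rfl
    have e2 : (((C.inR r).map (fun s => ((rename emb (C.valS s) : MvPolynomial U K),
        C.degS s))).map Prod.snd).sum = C.degR r := by
      rw [Multiset.map_map]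
      rfl
    rw [e1, e2] at h2
    refine h2.trans ?_
    apply mul_le_mul_of_nonneg_left _ (Real.sqrt_nonneg _)
    have : 0 ≤ (Fintype.card P : ℝ) * s1 ^ (Λ + 1) := by positivity
    linarith
  · push Not at hlow
    obtain ⟨s0, hs0, hd⟩ := hlow
    obtain ⟨rest, hrest⟩ := Multiset.exists_cons_of_mem hs0
    have e1 : rename emb (C.valR r) =
        ∑ p ∈ C.inS s0, C.coefS s0 p •
          (rename emb ((rest.map C.valS).prod) * rename emb (C.valP p)) := by
      unfold SPSPS.valR
      rw [hrest, Multiset.map_cons, Multiset.prod_cons, map_mul]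
      conv_lhs => rw [SPSPS.valS, map_sum]
      rw [Finset.sum_mul]
      apply Finset.sum_congr rfl
      intro p _
      rw [map_smul, smul_mul_assoc, mul_comm]
    rw [e1, blk_sum]
    have h3 : ∀ p ∈ C.inS s0, (((blk g (C.coefS s0 p •
          (rename emb ((rest.map C.valS).prod) * rename emb (C.valP p))) A0 B').rank : ℕ) : ℝ) ≤
        √(Wt w0 x y A0 * Wt w0 x y B') * s1 ^ (Λ + 1) := by
      intro p hp
      have h4 : (blk g (C.coefS s0 p •
          (rename emb ((rest.map C.valS).prod) * rename emb (C.valP p))) A0 B').rank ≤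
          (blk g ((rename emb ((rest.map C.valS).prod) : MvPolynomial U K) *
            rename emb (C.valP p)) A0 B').rank := by
        rw [blk_smul]
        exact rank_smul_le _ _
      have h5 := rank_high (Λ := Λ + 1) hx hy hw A0 hcard hs1 h0 h1 (C.inP p)
        (fun b => (rename emb (C.valB b) : MvPolynomial U K)) (fun b => C.degB b) (by
          intro b _
          exact ⟨(valB_hom C hC b).rename_isHomogeneous, degB_le C b⟩) (by
          have : ((C.inP p).map (fun b => C.degB b)).sum = C.degP p := rfl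
          rw [this, hC.2.1 s0 p hp]
          exact hd) B' hB (rename emb ((rest.map C.valS).prod))
      have e2 : ((C.inP p).map (fun b => (rename emb (C.valB b) : MvPolynomial U K))).prod =
          rename emb (C.valP p) := by
        unfold SPSPS.valP
        rw [map_multiset_prod, Multiset.map_map]
        rfl
      rw [e2] at h5
      exact le_trans (Nat.cast_le.2 h4) h5
    calc ((∑ p ∈ C.inS s0, blk g (C.coefS s0 p •
          (rename emb ((rest.map C.valS).prod) * rename emb (C.valP p))) A0 B').rank : ℝ)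
        ≤ ((∑ p ∈ C.inS s0, (blk g (C.coefS s0 p •
          (rename emb ((rest.map C.valS).prod) * rename emb (C.valP p))) A0 B').rank : ℕ) : ℝ) :=
          Nat.cast_le.2 (rank_sum_le _ _)
      _ = ∑ p ∈ C.inS s0, (((blk g (C.coefS s0 p •
          (rename emb ((rest.map C.valS).prod) * rename emb (C.valP p))) A0 B').rank : ℕ) : ℝ) := by
          push_cast; rfl
      _ ≤ ∑ p ∈ C.inS s0, √(Wt w0 x y A0 * Wt w0 x y B') * s1 ^ (Λ + 1) :=
          Finset.sum_le_sum h3
      _ = (C.inS s0).card * (√(Wt w0 x y A0 * Wt w0 x y B') * s1 ^ (Λ + 1)) := by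
          rw [Finset.sum_const, nsmul_eq_mul]
      _ ≤ (Fintype.card P : ℝ) * (√(Wt w0 x y A0 * Wt w0 x y B') * s1 ^ (Λ + 1)) := by
          apply mul_le_mul_of_nonneg_right _ (by positivity)
          exact_mod_cast Finset.card_le_univ _
      _ ≤ _ := by
          have h6 : 0 ≤ √(Wt w0 x y A0 * Wt w0 x y B') := Real.sqrt_nonneg _
          have h7 : 0 ≤ (6 : ℝ) ^ (2 * C.degR r / (Λ + 1) + 1) * γi ^ (C.degR r) := by positivity
          nlinarith [mul_nonneg h6 h7]

theorem rank_output {w0 x y γi s1 : ℝ} {Λ : ℕ} (hx : 0 < x) (hy : 0 < y) (hw : 0 ≤ w0)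
    (A0 : ℕ × ℕ)
    (hcard : ∀ A : ℕ × ℕ, A0 ≤ A → (Fintype.card (Lev g A) : ℝ) ≤ Wt w0 x y A)
    (hγ : 0 ≤ γi) (hS : ∀ d ≤ Λ, Sd x y d ≤ 6 * γi ^ d)
    (hs1 : s1 ≤ 1) (h0 : Sd x y 0 ≤ 1) (h1 : Sd x y 1 ≤ s1)
    (emb : V → U) (C : SPSPS K V L B P S R) (hC : C.IsHomogeneous)
    (B' : ℕ × ℕ) (hB : A0 ≤ B') :
    ((blk g (rename emb C.output) A0 B').rank : ℝ) ≤
      (Fintype.card R : ℝ) * (√(Wt w0 x y A0 * Wt w0 x y B') *
        (6 ^ (2 * C.degOut / (Λ + 1) + 1) * γi ^ (C.degOut) +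
          (Fintype.card P : ℝ) * s1 ^ (Λ + 1))) := by
  classical
  have hs1nn : 0 ≤ s1 := (Sd_nonneg _ _ _).trans h1
  unfold SPSPS.output
  rw [map_sum, blk_sum]
  have h3 : ∀ r ∈ C.inOut, (((blk g (rename emb (C.coefOut r • C.valR r)) A0 B').rank : ℕ) : ℝ) ≤
      √(Wt w0 x y A0 * Wt w0 x y B') *
        (6 ^ (2 * C.degOut / (Λ + 1) + 1) * γi ^ (C.degOut) +
          (Fintype.card P : ℝ) * s1 ^ (Λ + 1)) := by
    intro r hr
    have h4 : (blk g (rename emb (C.coefOut r • C.valR r)) A0 B').rank ≤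
        (blk g (rename emb (C.valR r)) A0 B').rank := by
      rw [map_smul, blk_smul]
      exact rank_smul_le _ _
    have h5 := rank_gate hx hy hw A0 hcard hγ hS hs1 h0 h1 emb C hC r B' hB
    rw [hC.2.2 r hr] at h5
    exact le_trans (Nat.cast_le.2 h4) h5
  calc ((∑ r ∈ C.inOut, blk g (rename emb (C.coefOut r • C.valR r)) A0 B').rank : ℝ)
      ≤ ((∑ r ∈ C.inOut, (blk g (rename emb (C.coefOut r • C.valR r)) A0 B').rank : ℕ) : ℝ) :=
        Nat.cast_le.2 (rank_sum_le _ _)
    _ = ∑ r ∈ C.inOut, (((blk g (rename emb (C.coefOut r • C.valR r)) A0 B').rank : ℕ) : ℝ) := by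
        push_cast; rfl
    _ ≤ ∑ r ∈ C.inOut, √(Wt w0 x y A0 * Wt w0 x y B') *
        (6 ^ (2 * C.degOut / (Λ + 1) + 1) * γi ^ (C.degOut) +
          (Fintype.card P : ℝ) * s1 ^ (Λ + 1)) := Finset.sum_le_sum h3
    _ = C.inOut.card * (√(Wt w0 x y A0 * Wt w0 x y B') *
        (6 ^ (2 * C.degOut / (Λ + 1) + 1) * γi ^ (C.degOut) +
          (Fintype.card P : ℝ) * s1 ^ (Λ + 1))) := by
        rw [Finset.sum_const, nsmul_eq_mul]
    _ ≤ _ := by
        apply mul_le_mul_of_nonneg_right _ (by positivity)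
        exact_mod_cast Finset.card_le_univ _

/-- Blocks of homogeneous polynomials of the wrong degree vanish. -/
theorem blk_eq_zero_of_degree {Q : MvPolynomial U K} {d : ℕ} (hQ : Q.IsHomogeneous d)
    (A T : ℕ × ℕ) (hd : d ≠ T.1 + T.2) : blk g Q A (A + T) = 0 := by
  ext Z' Z
  rw [blk_apply, Matrix.zero_apply]
  by_contra hne
  have h1 := subset_of_mm_ne_zero hne
  unfold mm at hne
  rw [if_pos h1] at hne
  unfold sqc at hne
  have h2 := degree_of_coeff_ne_zero hQ hne
  rw [degree_ind] at h2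
  have h3 := typ_sdiff g h1
  rw [Z'.2, Z.2] at h3
  have h4 : typ g (Z'.1 \ Z.1) = T := (add_left_cancel h3).symm
  have h5 := typ_sum g (Z'.1 \ Z.1)
  rw [h4] at h5
  omega

end Gate

end Crest.Agent.R327
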