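import Mathlib
import Crest.Agent.R327.Blocks
import Crest.Agent.R327.Binom

set_option autoImplicit false
set_option linter.unusedSectionVars false

namespace Crest.Agent.R327

section Count

variable {U : Type*} [Fintype U] [DecidableEq U] (g : U → Bool)

/-- Size of the ground set on side `b`. -/
def NN (b : Bool) : ℕ := (Finset.univ.filter (fun u => g u = b)).card

theorem mem_filter_side {Z : Finset U} {b : Bool} {u : U} :
    u ∈ Z.filter (fun u => g u = b) ↔ u ∈ Z ∧ g u = b := Finset.mem_filter

theorem card_side_sdiff (I O : Finset U) (hIO : Disjoint I O) (c : Bool) :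
    ((Finset.univ.filter (fun u => g u = c)) \ (I ∪ O)).card =
      NN g c - (O.filter (fun u => g u = c)).card - (I.filter (fun u => g u = c)).card := by
  have h1 : (Finset.univ.filter (fun u => g u = c)) \ (I ∪ O) =
      (Finset.univ.filter (fun u => g u = c)) \
        ((I.filter (fun u => g u = c)) ∪ (O.filter (fun u => g u = c))) := by
    ext u
    simp only [Finset.mem_sdiff, Finset.mem_filter, Finset.mem_univ, true_and, Finset.mem_union]
    tauto
  rw [h1, Finset.card_sdiff_of_subset, Finset.card_union_of_disjoint]
  · unfold NN; omega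
  · exact Finset.disjoint_filter_filter hIO
  · intro u hu
    simp only [Finset.mem_filter, Finset.mem_union, Finset.mem_univ, true_and] at hu ⊢
    tauto

theorem card_constraint (I O : Finset U) (hIO : Disjoint I O) (a b : ℕ)
    (ha : (typ g I).1 ≤ a) (hb : (typ g I).2 ≤ b) :
    (Finset.univ.filter (fun Z : Finset U => typ g Z = (a, b) ∧ I ⊆ Z ∧ Disjoint Z O)).card =
      (NN g true - (typ g O).1 - (typ g I).1).choose (a - (typ g I).1) *
      (NN g false - (typ g O).2 - (typ g I).2).choose (b - (typ g I).2) := by
  set S : Bool → Finset U := fun c => (Finset.univ.filter (fun u => g u = c)) \ (I ∪ O) with hS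
  have hcardS : ∀ c, (S c).card =
      NN g c - (O.filter (fun u => g u = c)).card - (I.filter (fun u => g u = c)).card :=
    fun c => card_side_sdiff g I O hIO c
  have e1 : (NN g true - (typ g O).1 - (typ g I).1).choose (a - (typ g I).1) =
      (Finset.powersetCard (a - (typ g I).1) (S true)).card := by
    rw [Finset.card_powersetCard, hcardS]; rfl
  have e2 : (NN g false - (typ g O).2 - (typ g I).2).choose (b - (typ g I).2) =
      (Finset.powersetCard (b - (typ g I).2) (S false)).card := by
    rw [Finset.card_powersetCard, hcardS]; rfl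
  rw [e1, e2, ← Finset.card_product]
  have memS : ∀ c u, u ∈ S c ↔ g u = c ∧ u ∉ I ∧ u ∉ O := by
    intro c u
    simp [hS, not_or]
  apply Finset.card_nbij'
    (fun Z => ((Z.filter (fun u => g u = true)) \ I, (Z.filter (fun u => g u = false)) \ I))
    (fun P => P.1 ∪ P.2 ∪ I)
  · intro Z hZ
    simp only [Finset.coe_filter, Finset.mem_univ, true_and, Set.mem_ofPred_eq] at hZ
    obtain ⟨hT, hI, hO⟩ := hZ
    have hTa : (Z.filter (fun u => g u = true)).card = a := by
      have := congrArg Prod.fst hT; exact this
    have hTb : (Z.filter (fun u => g u = false)).card = b := by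
      have := congrArg Prod.snd hT; exact this
    have hsub : ∀ c, (Z.filter (fun u => g u = c)) \ I ⊆ S c := by
      intro c u hu
      rw [Finset.mem_sdiff, Finset.mem_filter] at hu
      rw [memS]
      exact ⟨hu.1.2, hu.2, fun h => (Finset.disjoint_left.1 hO hu.1.1 h)⟩
    have hcard : ∀ c, ((Z.filter (fun u => g u = c)) \ I).card =
        (Z.filter (fun u => g u = c)).card - (I.filter (fun u => g u = c)).card := by
      intro c
      have : (Z.filter (fun u => g u = c)) \ I =
          (Z.filter (fun u => g u = c)) \ (I.filter (fun u => g u = c)) := by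
        ext u
        simp only [Finset.mem_sdiff, Finset.mem_filter]
        tauto
      rw [this, Finset.card_sdiff_of_subset]
      exact Finset.filter_subset_filter _ hI
    simp only [Finset.coe_product, Set.mem_prod, Finset.mem_coe, Finset.mem_powersetCard]
    refine ⟨⟨hsub true, ?_⟩, ⟨hsub false, ?_⟩⟩
    · rw [hcard, hTa]; rfl
    · rw [hcard, hTb]; rfl
  · rintro ⟨P, Q⟩ hPQ
    simp only [Finset.coe_product, Set.mem_prod, Finset.mem_coe, Finset.mem_powersetCard] at hPQ
    obtain ⟨⟨hP, hPc⟩, ⟨hQ, hQc⟩⟩ := hPQ
    simp only [Finset.coe_filter, Finset.mem_univ, true_and, Set.mem_ofPred_eq]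
    have f1 : (P ∪ Q ∪ I).filter (fun u => g u = true) = P ∪ I.filter (fun u => g u = true) := by
      ext u
      simp only [Finset.mem_filter, Finset.mem_union]
      constructor
      · rintro ⟨(h | h) | h, h2⟩
        · exact Or.inl h
        · have := ((memS false u).1 (hQ h)).1
          rw [this] at h2; exact absurd h2 (by simp)
        · exact Or.inr ⟨h, h2⟩
      · rintro (h | h)
        · exact ⟨Or.inl (Or.inl h), ((memS true u).1 (hP h)).1⟩
        · exact ⟨Or.inr h.1, h.2⟩
    have f2 : (P ∪ Q ∪ I).filter (fun u => g u = false) = Q ∪ I.filter (fun u => g u = false) := by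
      ext u
      simp only [Finset.mem_filter, Finset.mem_union]
      constructor
      · rintro ⟨(h | h) | h, h2⟩
        · have := ((memS true u).1 (hP h)).1
          rw [this] at h2; exact absurd h2 (by simp)
        · exact Or.inl h
        · exact Or.inr ⟨h, h2⟩
      · rintro (h | h)
        · exact ⟨Or.inl (Or.inr h), ((memS false u).1 (hQ h)).1⟩
        · exact ⟨Or.inr h.1, h.2⟩
    have d1 : Disjoint P (I.filter (fun u => g u = true)) := by
      rw [Finset.disjoint_left]
      intro u hu hu2
      exact ((memS true u).1 (hP hu)).2.1 (Finset.mem_filter.1 hu2).1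
    have d2 : Disjoint Q (I.filter (fun u => g u = false)) := by
      rw [Finset.disjoint_left]
      intro u hu hu2
      exact ((memS false u).1 (hQ hu)).2.1 (Finset.mem_filter.1 hu2).1
    refine ⟨?_, Finset.subset_union_right, ?_⟩
    · unfold typ at ha hb hPc hQc ⊢
      simp only at ha hb hPc hQc ⊢
      rw [f1, f2, Finset.card_union_of_disjoint d1, Finset.card_union_of_disjoint d2, hPc, hQc]
      ext
      · simp only; omega
      · simp only; omega
    · rw [Finset.disjoint_left]
      intro u hu hu2
      simp only [Finset.mem_union] at hu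
      rcases hu with (h | h) | h
      · exact ((memS true u).1 (hP h)).2.2 hu2
      · exact ((memS false u).1 (hQ h)).2.2 hu2
      · exact Finset.disjoint_left.1 hIO h hu2
  · intro Z hZ
    simp only [Finset.coe_filter, Finset.mem_univ, true_and, Set.mem_ofPred_eq] at hZ
    obtain ⟨hT, hI, hO⟩ := hZ
    ext u
    simp only [Finset.mem_union, Finset.mem_sdiff, Finset.mem_filter]
    by_cases hu : u ∈ I
    · simp [hu, hI hu]
    · by_cases hg : g u = true
      · simp [hu, hg]
      · have hg' : g u = false := by simpa using hg
        simp [hu, hg']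
  · rintro ⟨P, Q⟩ hPQ
    simp only [Finset.coe_product, Set.mem_prod, Finset.mem_coe, Finset.mem_powersetCard] at hPQ
    obtain ⟨⟨hP, hPc⟩, ⟨hQ, hQc⟩⟩ := hPQ
    simp only [Prod.mk.injEq]
    constructor
    · ext u
      simp only [Finset.mem_sdiff, Finset.mem_filter, Finset.mem_union]
      constructor
      · rintro ⟨⟨(h | h) | h, h2⟩, h3⟩
        · exact h
        · have := ((memS false u).1 (hQ h)).1
          rw [this] at h2; exact absurd h2 (by simp)
        · exact absurd h h3
      · intro h
        have := (memS true u).1 (hP h)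
        exact ⟨⟨Or.inl (Or.inl h), this.1⟩, this.2.1⟩
    · ext u
      simp only [Finset.mem_sdiff, Finset.mem_filter, Finset.mem_union]
      constructor
      · rintro ⟨⟨(h | h) | h, h2⟩, h3⟩
        · have := ((memS true u).1 (hP h)).1
          rw [this] at h2; exact absurd h2 (by simp)
        · exact h
        · exact absurd h h3
      · intro h
        have := (memS false u).1 (hQ h)
        exact ⟨⟨Or.inl (Or.inr h), this.1⟩, this.2.1⟩

theorem card_lev (A : ℕ × ℕ) :
    Fintype.card (Lev g A) = (NN g true).choose A.1 * (NN g false).choose A.2 := by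
  have h := card_constraint g ∅ ∅ (Finset.disjoint_empty_left _) A.1 A.2 (by simp [typ])
    (by simp [typ])
  rw [Fintype.card_subtype]
  have e : (Finset.univ.filter (fun Z : Finset U => typ g Z = (A.1, A.2) ∧ ∅ ⊆ Z ∧ Disjoint Z ∅)) =
      (Finset.univ.filter (fun Z : Finset U => typ g Z = A)) := by
    apply Finset.filter_congr
    intro Z _
    simp
  rw [e] at h
  simpa [typ] using h

end Count

end Crest.Agent.R327
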