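import Mathlib
import Crest.Agent.R327.Levels

set_option autoImplicit false
set_option linter.unusedSectionVars false

namespace Crest.Agent.R327

open Matrix

section Fam

variable {U P : Type*} [Fintype U] [DecidableEq U] [Fintype P] (g : U → Bool)
  (E : P → Finset U)

/-- The natural number matrix counting `p` with `Z' = Z ⊔ E p`. -/
def cnt (A B : ℕ × ℕ) : Matrix (Lev g B) (Lev g A) ℕ :=
  fun Z' Z => ∑ p : P, if Disjoint Z.1 (E p) ∧ Z'.1 = Z.1 ∪ E p then 1 else 0

/-- its real version -/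
noncomputable def cntR (A B : ℕ × ℕ) : Matrix (Lev g B) (Lev g A) ℝ :=
  (cnt g E A B).map (fun x : ℕ => (x : ℝ))

theorem cntR_apply (A B : ℕ × ℕ) (Z' : Lev g B) (Z : Lev g A) :
    cntR g E A B Z' Z =
      ∑ p : P, if Disjoint Z.1 (E p) ∧ Z'.1 = Z.1 ∪ E p then (1 : ℝ) else 0 := by
  simp [cntR, cnt]

variable {g} {E}

theorem typ_union {Z S : Finset U} (h : Disjoint Z S) : typ g (Z ∪ S) = typ g Z + typ g S := by
  rw [typ_sdiff g (Finset.subset_union_left : Z ⊆ Z ∪ S)]
  congr 1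
  rw [Finset.union_sdiff_left]
  rw [Finset.sdiff_eq_self_of_disjoint h.symm]

/-- First moment. -/
theorem trace_ge {T : ℕ × ℕ} (hE : ∀ p, typ g (E p) = T) (A : ℕ × ℕ) :
    (∑ p : P, ((Finset.univ.filter (fun Z : Finset U => typ g Z = A ∧ Disjoint Z (E p))).card : ℝ)) ≤
      Matrix.trace ((cntR g E A (A + T))ᵀ * cntR g E A (A + T)) := by
  classical
  have h1 : ∀ (Z' : Lev g (A + T)) (Z : Lev g A),
      cntR g E A (A + T) Z' Z ≤ cntR g E A (A + T) Z' Z * cntR g E A (A + T) Z' Z := by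
    intro Z' Z
    have : cntR g E A (A + T) Z' Z = ((cnt g E A (A + T) Z' Z : ℕ) : ℝ) := rfl
    rw [this]
    exact_mod_cast Nat.le_mul_self _
  have h2 : Matrix.trace ((cntR g E A (A + T))ᵀ * cntR g E A (A + T)) =
      ∑ Z : Lev g A, ∑ Z' : Lev g (A + T), cntR g E A (A + T) Z' Z * cntR g E A (A + T) Z' Z := by
    simp [Matrix.trace, Matrix.mul_apply]
  rw [h2]
  have h3 : ∑ Z : Lev g A, ∑ Z' : Lev g (A + T), cntR g E A (A + T) Z' Z ≤
      ∑ Z : Lev g A, ∑ Z' : Lev g (A + T),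
        cntR g E A (A + T) Z' Z * cntR g E A (A + T) Z' Z :=
    Finset.sum_le_sum (fun Z _ => Finset.sum_le_sum (fun Z' _ => h1 Z' Z))
  refine le_trans (le_of_eq ?_) h3
  simp only [cntR_apply]
  have h4 : ∀ Z : Lev g A, (∑ Z' : Lev g (A + T), ∑ p : P,
      (if Disjoint Z.1 (E p) ∧ Z'.1 = Z.1 ∪ E p then (1 : ℝ) else 0)) =
      ∑ p : P, if Disjoint Z.1 (E p) then (1 : ℝ) else 0 := by
    intro Z
    rw [Finset.sum_comm]
    apply Finset.sum_congr rfl
    intro p _
    by_cases hd : Disjoint Z.1 (E p)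
    · rw [if_pos hd]
      have ht : typ g (Z.1 ∪ E p) = A + T := by rw [typ_union hd, Z.2, hE]
      rw [Finset.sum_eq_single (⟨Z.1 ∪ E p, ht⟩ : Lev g (A + T))]
      · simp [hd]
      · intro Z' _ hne
        rw [if_neg]
        rintro ⟨_, h⟩
        exact hne (Subtype.ext h)
      · intro h; exact absurd (Finset.mem_univ _) h
    · rw [if_neg hd]
      apply Finset.sum_eq_zero
      intro Z' _
      rw [if_neg]
      rintro ⟨h, _⟩
      exact hd h
  rw [Finset.sum_congr rfl (fun Z _ => h4 Z), Finset.sum_comm]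
  apply Finset.sum_congr rfl
  intro p _
  rw [← Finset.sum_filter, Finset.sum_const, nsmul_eq_mul, mul_one]
  norm_cast
  apply Finset.card_bij (fun (Z : Finset U) (hZ : Z ∈ Finset.univ.filter
      (fun Z : Finset U => typ g Z = A ∧ Disjoint Z (E p))) =>
      (⟨Z, (Finset.mem_filter.1 hZ).2.1⟩ : Lev g A))
  · intro Z hZ
    simp only [Finset.mem_filter, Finset.mem_univ, true_and] at hZ ⊢
    exact hZ.2
  · intro Z hZ Z' hZ' h
    exact congrArg Subtype.val h
  · intro Z hZ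
    simp only [Finset.mem_filter, Finset.mem_univ, true_and] at hZ
    exact ⟨Z.1, by simp only [Finset.mem_filter, Finset.mem_univ, true_and]; exact ⟨Z.2, hZ⟩, rfl⟩

theorem ite_mul_ite_one {p q : Prop} [Decidable p] [Decidable q] [Decidable (p ∧ q)] :
    (if p then (1 : ℝ) else 0) * (if q then (1 : ℝ) else 0) = if p ∧ q then 1 else 0 := by
  by_cases hp : p <;> by_cases hq : q <;> simp [hp, hq]

/-- Compatibility of four members. -/
def Compat (a a' b b' : Finset U) : Prop := a \ a' = b \ b' ∧ a' \ a = b' \ b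

theorem compat_of {Z1 Z2 a a' b b' : Finset U}
    (h1 : Disjoint Z1 a) (h2 : Disjoint Z2 a') (h3 : Z1 ∪ a = Z2 ∪ a')
    (h4 : Disjoint Z1 b) (h5 : Disjoint Z2 b') (h6 : Z1 ∪ b = Z2 ∪ b') :
    Compat a a' b b' ∧ Disjoint Z1 (a ∪ b) ∧ a' \ a ⊆ Z1 ∧ Z2 = (Z1 ∪ a) \ a' := by
  rw [Finset.disjoint_left] at h1 h2 h4 h5
  have m1 : ∀ u, (u ∈ Z1 ∨ u ∈ a) ↔ (u ∈ Z2 ∨ u ∈ a') := by
    intro u
    rw [← Finset.mem_union, h3, Finset.mem_union]
  have m2 : ∀ u, (u ∈ Z1 ∨ u ∈ b) ↔ (u ∈ Z2 ∨ u ∈ b') := by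
    intro u
    rw [← Finset.mem_union, h6, Finset.mem_union]
  clear h3 h6
  refine ⟨⟨?_, ?_⟩, ?_, ?_, ?_⟩
  · ext u
    rw [Finset.mem_sdiff, Finset.mem_sdiff]
    have k1 := m1 u; have k2 := m2 u; have k3 := @h1 u; have k4 := @h2 u
    have k5 := @h4 u; have k6 := @h5 u
    clear m1 m2 h1 h2 h4 h5
    grind
  · ext u
    rw [Finset.mem_sdiff, Finset.mem_sdiff]
    have k1 := m1 u; have k2 := m2 u; have k3 := @h1 u; have k4 := @h2 u
    have k5 := @h4 u; have k6 := @h5 u
    clear m1 m2 h1 h2 h4 h5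
    grind
  · rw [Finset.disjoint_left]
    intro u hu
    rw [Finset.mem_union]
    have k3 := @h1 u hu; have k5 := @h4 u hu
    tauto
  · intro u hu
    rw [Finset.mem_sdiff] at hu
    have k1 := m1 u
    tauto
  · ext u
    rw [Finset.mem_sdiff, Finset.mem_union]
    have k1 := m1 u; have k3 := @h1 u; have k4 := @h2 u
    clear m1 m2 h1 h2 h4 h5
    grind

open Classical in
/-- Second moment. -/
theorem trace_sq_le {T : ℕ × ℕ} (A : ℕ × ℕ) :
    Matrix.trace (((cntR g E A (A + T))ᵀ * cntR g E A (A + T)) *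
      ((cntR g E A (A + T))ᵀ * cntR g E A (A + T))) ≤
    ∑ a : P, ∑ a' : P, ∑ b : P, ∑ b' : P,
      if Compat (E a) (E a') (E b) (E b') then
        ((Finset.univ.filter (fun Z : Finset U => typ g Z = A ∧
          (E a' \ E a) ⊆ Z ∧ Disjoint Z (E a ∪ E b))).card : ℝ) else 0 := by
  set M := cntR g E A (A + T) with hM
  have hG : ∀ Z1 Z2 : Lev g A, (Mᵀ * M) Z1 Z2 =
      ∑ a : P, ∑ a' : P, ∑ Z' : Lev g (A + T),
        (if (Disjoint Z1.1 (E a) ∧ Z'.1 = Z1.1 ∪ E a) ∧ (Disjoint Z2.1 (E a') ∧ Z'.1 = Z2.1 ∪ E a')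
          then (1 : ℝ) else 0) := by
    intro Z1 Z2
    rw [Matrix.mul_apply]
    simp only [Matrix.transpose_apply, hM, cntR_apply]
    have : ∀ Z' : Lev g (A + T),
        (∑ a : P, if Disjoint Z1.1 (E a) ∧ Z'.1 = Z1.1 ∪ E a then (1 : ℝ) else 0) *
        (∑ a' : P, if Disjoint Z2.1 (E a') ∧ Z'.1 = Z2.1 ∪ E a' then (1 : ℝ) else 0) =
        ∑ a : P, ∑ a' : P,
        (if (Disjoint Z1.1 (E a) ∧ Z'.1 = Z1.1 ∪ E a) ∧ (Disjoint Z2.1 (E a') ∧ Z'.1 = Z2.1 ∪ E a')
          then (1 : ℝ) else 0) := by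
      intro Z'
      rw [Finset.sum_mul_sum]
      apply Finset.sum_congr rfl
      intro a _
      apply Finset.sum_congr rfl
      intro a' _
      exact ite_mul_ite_one
    rw [Finset.sum_congr rfl (fun Z' _ => this Z'), Finset.sum_comm]
    apply Finset.sum_congr rfl
    intro a _
    rw [Finset.sum_comm]
  have hG' : ∀ Z1 Z2 : Lev g A, (Mᵀ * M) Z1 Z2 ≤
      ∑ a : P, ∑ a' : P,
        (if Disjoint Z1.1 (E a) ∧ Disjoint Z2.1 (E a') ∧ Z1.1 ∪ E a = Z2.1 ∪ E a'
          then (1 : ℝ) else 0) := by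
    intro Z1 Z2
    rw [hG]
    apply Finset.sum_le_sum
    intro a _
    apply Finset.sum_le_sum
    intro a' _
    by_cases h : Disjoint Z1.1 (E a) ∧ Disjoint Z2.1 (E a') ∧ Z1.1 ∪ E a = Z2.1 ∪ E a'
    · rw [if_pos h]
      rw [← Finset.sum_filter, Finset.sum_const, nsmul_eq_mul, mul_one]
      have : (Finset.univ.filter (fun Z' : Lev g (A + T) =>
          (Disjoint Z1.1 (E a) ∧ Z'.1 = Z1.1 ∪ E a) ∧
          (Disjoint Z2.1 (E a') ∧ Z'.1 = Z2.1 ∪ E a'))).card ≤ 1 := by
        rw [Finset.card_le_one]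
        intro x hx y hy
        simp only [Finset.mem_filter, Finset.mem_univ, true_and] at hx hy
        exact Subtype.ext (hx.1.2.trans hy.1.2.symm)
      exact_mod_cast this
    · rw [if_neg h]
      apply le_of_eq
      apply Finset.sum_eq_zero
      intro Z' _
      rw [if_neg]
      rintro ⟨⟨h1, h2⟩, ⟨h3, h4⟩⟩
      exact h ⟨h1, h3, h2.symm.trans h4⟩
  have hGnn : ∀ Z1 Z2 : Lev g A, 0 ≤ (Mᵀ * M) Z1 Z2 := by
    intro Z1 Z2
    rw [hG]
    positivity
  have hsymm : ∀ Z1 Z2 : Lev g A, (Mᵀ * M) Z1 Z2 = (Mᵀ * M) Z2 Z1 := by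
    intro Z1 Z2
    simp only [Matrix.mul_apply, Matrix.transpose_apply]
    apply Finset.sum_congr rfl
    intro x _
    ring
  have h2 : Matrix.trace ((Mᵀ * M) * (Mᵀ * M)) =
      ∑ Z1 : Lev g A, ∑ Z2 : Lev g A, (Mᵀ * M) Z1 Z2 * (Mᵀ * M) Z1 Z2 := by
    unfold Matrix.trace
    apply Finset.sum_congr rfl
    intro Z1 _
    rw [Matrix.diag_apply, Matrix.mul_apply]
    apply Finset.sum_congr rfl
    intro Z2 _
    rw [hsymm Z2 Z1]
  rw [h2]
  calc ∑ Z1 : Lev g A, ∑ Z2 : Lev g A, (Mᵀ * M) Z1 Z2 * (Mᵀ * M) Z1 Z2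
      ≤ ∑ Z1 : Lev g A, ∑ Z2 : Lev g A,
        (∑ a : P, ∑ a' : P,
        (if Disjoint Z1.1 (E a) ∧ Disjoint Z2.1 (E a') ∧ Z1.1 ∪ E a = Z2.1 ∪ E a'
          then (1 : ℝ) else 0)) *
        (∑ b : P, ∑ b' : P,
        (if Disjoint Z1.1 (E b) ∧ Disjoint Z2.1 (E b') ∧ Z1.1 ∪ E b = Z2.1 ∪ E b'
          then (1 : ℝ) else 0)) := by
        apply Finset.sum_le_sum
        intro Z1 _
        apply Finset.sum_le_sum
        intro Z2 _
        exact mul_le_mul (hG' Z1 Z2) (hG' Z1 Z2) (hGnn _ _) ((hGnn _ _).trans (hG' _ _))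
    _ = ∑ Z1 : Lev g A, ∑ Z2 : Lev g A, ∑ a : P, ∑ a' : P, ∑ b : P, ∑ b' : P,
        (if (Disjoint Z1.1 (E a) ∧ Disjoint Z2.1 (E a') ∧ Z1.1 ∪ E a = Z2.1 ∪ E a') ∧
          (Disjoint Z1.1 (E b) ∧ Disjoint Z2.1 (E b') ∧ Z1.1 ∪ E b = Z2.1 ∪ E b')
          then (1 : ℝ) else 0) := by
        apply Finset.sum_congr rfl
        intro Z1 _
        apply Finset.sum_congr rfl
        intro Z2 _
        rw [Finset.sum_mul]
        apply Finset.sum_congr rfl
        intro a _
        rw [Finset.sum_mul]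
        apply Finset.sum_congr rfl
        intro a' _
        rw [Finset.mul_sum]
        apply Finset.sum_congr rfl
        intro b _
        rw [Finset.mul_sum]
        apply Finset.sum_congr rfl
        intro b' _
        exact ite_mul_ite_one
    _ = ∑ a : P, ∑ a' : P, ∑ b : P, ∑ b' : P, ∑ Z1 : Lev g A, ∑ Z2 : Lev g A,
        (if (Disjoint Z1.1 (E a) ∧ Disjoint Z2.1 (E a') ∧ Z1.1 ∪ E a = Z2.1 ∪ E a') ∧
          (Disjoint Z1.1 (E b) ∧ Disjoint Z2.1 (E b') ∧ Z1.1 ∪ E b = Z2.1 ∪ E b')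
          then (1 : ℝ) else 0) := by
        have sw : ∀ F : Lev g A → Lev g A → P → P → P → P → ℝ,
            ∑ Z1 : Lev g A, ∑ Z2 : Lev g A, ∑ a : P, ∑ a' : P, ∑ b : P, ∑ b' : P,
              F Z1 Z2 a a' b b' =
            ∑ a : P, ∑ a' : P, ∑ b : P, ∑ b' : P, ∑ Z1 : Lev g A, ∑ Z2 : Lev g A,
              F Z1 Z2 a a' b b' := by
          intro F
          have e1 : ∀ G : Lev g A → Lev g A → P → ℝ,
              ∑ Z1 : Lev g A, ∑ Z2 : Lev g A, ∑ a : P, G Z1 Z2 a =
              ∑ a : P, ∑ Z1 : Lev g A, ∑ Z2 : Lev g A, G Z1 Z2 a := by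
            intro G
            rw [Finset.sum_comm]
            rw [Finset.sum_congr rfl (fun Z2 _ => Finset.sum_comm)]
            rw [Finset.sum_comm]
            apply Finset.sum_congr rfl
            intro a _
            rw [Finset.sum_comm]
          rw [e1]
          apply Finset.sum_congr rfl; intro a _
          rw [e1]
          apply Finset.sum_congr rfl; intro a' _
          rw [e1]
          apply Finset.sum_congr rfl; intro b _
          rw [e1]
        exact sw _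
    _ ≤ _ := by
        apply Finset.sum_le_sum; intro a _
        apply Finset.sum_le_sum; intro a' _
        apply Finset.sum_le_sum; intro b _
        apply Finset.sum_le_sum; intro b' _
        by_cases hc : Compat (E a) (E a') (E b) (E b')
        · rw [if_pos hc]
          -- inner sum over Z2 at most one
          have h3 : ∀ Z1 : Lev g A, (∑ Z2 : Lev g A,
              (if (Disjoint Z1.1 (E a) ∧ Disjoint Z2.1 (E a') ∧ Z1.1 ∪ E a = Z2.1 ∪ E a') ∧
                (Disjoint Z1.1 (E b) ∧ Disjoint Z2.1 (E b') ∧ Z1.1 ∪ E b = Z2.1 ∪ E b')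
                then (1 : ℝ) else 0)) ≤
              if (E a' \ E a) ⊆ Z1.1 ∧ Disjoint Z1.1 (E a ∪ E b) then 1 else 0 := by
            intro Z1
            by_cases h4 : (E a' \ E a) ⊆ Z1.1 ∧ Disjoint Z1.1 (E a ∪ E b)
            · rw [if_pos h4, ← Finset.sum_filter, Finset.sum_const, nsmul_eq_mul, mul_one]
              have : (Finset.univ.filter (fun Z2 : Lev g A =>
                  (Disjoint Z1.1 (E a) ∧ Disjoint Z2.1 (E a') ∧ Z1.1 ∪ E a = Z2.1 ∪ E a') ∧
                  (Disjoint Z1.1 (E b) ∧ Disjoint Z2.1 (E b') ∧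
                    Z1.1 ∪ E b = Z2.1 ∪ E b'))).card ≤ 1 := by
                rw [Finset.card_le_one]
                intro x hx y hy
                simp only [Finset.mem_filter, Finset.mem_univ, true_and] at hx hy
                have e1 := (compat_of hx.1.1 hx.1.2.1 hx.1.2.2 hx.2.1 hx.2.2.1 hx.2.2.2).2.2.2
                have e2 := (compat_of hy.1.1 hy.1.2.1 hy.1.2.2 hy.2.1 hy.2.2.1 hy.2.2.2).2.2.2
                exact Subtype.ext (e1.trans e2.symm)
              exact_mod_cast this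
            · rw [if_neg h4]
              apply le_of_eq
              apply Finset.sum_eq_zero
              intro Z2 _
              rw [if_neg]
              rintro ⟨⟨k1, k2, k3⟩, ⟨k4, k5, k6⟩⟩
              have := compat_of k1 k2 k3 k4 k5 k6
              exact h4 ⟨this.2.2.1, this.2.1⟩
          refine (Finset.sum_le_sum (fun Z1 _ => h3 Z1)).trans (le_of_eq ?_)
          rw [← Finset.sum_filter, Finset.sum_const, nsmul_eq_mul, mul_one]
          norm_cast
          symm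
          apply Finset.card_bij (fun (Z : Finset U) (hZ : Z ∈ Finset.univ.filter
              (fun Z : Finset U => typ g Z = A ∧ (E a' \ E a) ⊆ Z ∧ Disjoint Z (E a ∪ E b))) =>
              (⟨Z, (Finset.mem_filter.1 hZ).2.1⟩ : Lev g A))
          · intro Z hZ
            simp only [Finset.mem_filter, Finset.mem_univ, true_and] at hZ ⊢
            exact hZ.2
          · intro Z hZ Z' hZ' h
            exact congrArg Subtype.val h
          · intro Z hZ
            simp only [Finset.mem_filter, Finset.mem_univ, true_and] at hZ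
            exact ⟨Z.1, by simp only [Finset.mem_filter, Finset.mem_univ, true_and];
                           exact ⟨Z.2, hZ⟩, rfl⟩
        · rw [if_neg hc]
          apply le_of_eq
          apply Finset.sum_eq_zero
          intro Z1 _
          apply Finset.sum_eq_zero
          intro Z2 _
          rw [if_neg]
          rintro ⟨⟨k1, k2, k3⟩, ⟨k4, k5, k6⟩⟩
          exact hc (compat_of k1 k2 k3 k4 k5 k6).1

end Fam

end Crest.Agent.R327
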