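import Mathlib

set_option autoImplicit false

namespace Crest.Agent.R327

section Chain

variable {R ι : Type*} [CommSemiring R] [Fintype ι] [DecidableEq ι]

/-- Entry of an ordered product of matrices as a sum over paths. -/
theorem ofFn_prod_apply (l : ℕ) (M : Fin l → Matrix ι ι R) (i j : ι) :
    (List.ofFn M).prod i j =
      ∑ p : Fin (l + 1) → ι,
        if p 0 = i ∧ p (Fin.last l) = j then ∏ t : Fin l, M t (p t.castSucc) (p t.succ) else 0 := by
  induction l generalizing i with
  | zero =>
    simp only [List.ofFn_zero, List.prod_nil, Matrix.one_apply, Finset.univ_eq_empty,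
      Finset.prod_empty]
    by_cases hij : i = j
    · subst hij
      rw [if_pos rfl]
      rw [Finset.sum_eq_single (fun _ => i)]
      · simp
      · intro p _ hp
        rw [if_neg]
        rintro ⟨h1, _⟩
        apply hp
        funext x
        have : x = 0 := by
          apply Fin.ext
          have := x.2
          simp only [Fin.val_zero]
          omega
        rw [this, h1]
      · intro h; exact absurd (Finset.mem_univ _) h
    · rw [if_neg hij]
      symm
      apply Finset.sum_eq_zero
      intro p _
      rw [if_neg]
      rintro ⟨h1, h2⟩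
      apply hij
      rw [← h1, ← h2]
      rfl
  | succ l ih =>
    rw [List.ofFn_succ, List.prod_cons, Matrix.mul_apply]
    rw [← (Fin.consEquiv (fun _ : Fin (l + 2) => ι)).sum_comp]
    rw [Fintype.sum_prod_type]
    have h1 : ∀ a : ι, (∑ q : (Fin (l + 1) → ι),
        (if (Fin.consEquiv (fun _ : Fin (l + 2) => ι)) (a, q) 0 = i ∧
            (Fin.consEquiv (fun _ : Fin (l + 2) => ι)) (a, q) (Fin.last (l + 1)) = j then
          ∏ t : Fin (l + 1), M t ((Fin.consEquiv (fun _ : Fin (l + 2) => ι)) (a, q) t.castSucc)
            ((Fin.consEquiv (fun _ : Fin (l + 2) => ι)) (a, q) t.succ) else 0)) =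
        if a = i then ∑ q : (Fin (l + 1) → ι),
          (if q (Fin.last l) = j then M 0 i (q 0) *
            ∏ t : Fin l, M t.succ (q t.castSucc) (q t.succ) else 0) else 0 := by
      intro a
      by_cases ha : a = i
      · subst ha
        rw [if_pos rfl]
        apply Finset.sum_congr rfl
        intro q _
        have e1 : (Fin.consEquiv (fun _ : Fin (l + 2) => ι)) (a, q) 0 = a := rfl
        have e2 : (Fin.consEquiv (fun _ : Fin (l + 2) => ι)) (a, q) (Fin.last (l + 1)) =
            q (Fin.last l) := rfl
        rw [e1, e2]
        simp only [true_and]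
        by_cases hq : q (Fin.last l) = j
        · rw [if_pos hq, if_pos hq, Fin.prod_univ_succ]
          rfl
        · rw [if_neg hq, if_neg hq]
      · rw [if_neg ha]
        apply Finset.sum_eq_zero
        intro q _
        rw [if_neg]
        rintro ⟨h, _⟩
        exact ha h
    rw [Finset.sum_congr rfl (fun a _ => h1 a)]
    rw [Finset.sum_ite_eq' Finset.univ i, if_pos (Finset.mem_univ _)]
    have h2 : ∀ k : ι, M 0 i k * (List.ofFn fun t : Fin l => M t.succ).prod k j =
        ∑ q : (Fin (l + 1) → ι), if q 0 = k then
          (if q (Fin.last l) = j then M 0 i (q 0) *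
            ∏ t : Fin l, M t.succ (q t.castSucc) (q t.succ) else 0) else 0 := by
      intro k
      rw [ih, Finset.mul_sum]
      apply Finset.sum_congr rfl
      intro q _
      by_cases h1 : q 0 = k
      · subst h1
        by_cases h2 : q (Fin.last l) = j <;> simp [h2]
      · simp [h1]
    rw [Finset.sum_congr rfl (fun k _ => h2 k), Finset.sum_comm]
    apply Finset.sum_congr rfl
    intro q _
    rw [Finset.sum_ite_eq Finset.univ (q 0), if_pos (Finset.mem_univ _)]

end Chain

end Crest.Agent.R327
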