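import Mathlib

set_option autoImplicit false
set_option linter.unusedSectionVars false

namespace Crest.Agent.R327

section Transfer

variable (n : ℕ)

/-- quadruples of vertices -/
abbrev St (n : ℕ) := Fin n × Fin n × Fin n × Fin n

/-- indicator of `a = a'`, `b = b'` -/
def i1 (s : St n) : ℝ := if s.1 = s.2.1 ∧ s.2.2.1 = s.2.2.2 then 1 else 0

/-- indicator of `a = b`, `a' = b'` -/
def i2 (s : St n) : ℝ := if s.1 = s.2.2.1 ∧ s.2.1 = s.2.2.2 then 1 else 0

/-- transfer matrix -/
def Wm (x : ℝ) : Matrix (St n) (St n) ℝ := fun s s' => i1 n s * i1 n s' + x * (i2 n s * i2 n s')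

theorem i1_sq (s : St n) : i1 n s * i1 n s = i1 n s := by
  unfold i1; split_ifs <;> simp

theorem i2_sq (s : St n) : i2 n s * i2 n s = i2 n s := by
  unfold i2; split_ifs <;> simp

theorem sum_i1 : ∑ s : St n, i1 n s = (n : ℝ) ^ 2 := by
  unfold i1
  simp only [Fintype.sum_prod_type]
  have h : ∀ a : Fin n, (∑ a' : Fin n, ∑ b : Fin n, ∑ b' : Fin n,
      (if a = a' ∧ b = b' then (1 : ℝ) else 0)) = n := by
    intro a
    have h1 : ∀ a' : Fin n, (∑ b : Fin n, ∑ b' : Fin n,
        (if a = a' ∧ b = b' then (1 : ℝ) else 0)) = if a = a' then (n : ℝ) else 0 := by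
      intro a'
      by_cases ha : a = a'
      · subst ha
        simp
      · simp [ha]
    rw [Finset.sum_congr rfl (fun a' _ => h1 a')]
    simp
  rw [Finset.sum_congr rfl (fun a _ => h a)]
  simp [pow_two]

theorem sum_i2 : ∑ s : St n, i2 n s = (n : ℝ) ^ 2 := by
  unfold i2
  simp only [Fintype.sum_prod_type]
  have h : ∀ a a' : Fin n, (∑ b : Fin n, ∑ b' : Fin n,
      (if a = b ∧ a' = b' then (1 : ℝ) else 0)) = 1 := by
    intro a a'
    have h1 : ∀ b : Fin n, (∑ b' : Fin n,
        (if a = b ∧ a' = b' then (1 : ℝ) else 0)) = if a = b then 1 else 0 := by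
      intro b
      by_cases ha : a = b
      · subst ha
        simp
      · simp [ha]
    rw [Finset.sum_congr rfl (fun b _ => h1 b)]
    simp
  rw [Finset.sum_congr rfl (fun a _ => Finset.sum_congr rfl (fun a' _ => h a a'))]
  simp [pow_two]

theorem sum_i1_i2 : ∑ s : St n, i1 n s * i2 n s = (n : ℝ) := by
  unfold i1 i2
  simp only [Fintype.sum_prod_type]
  have h : ∀ a : Fin n, (∑ a' : Fin n, ∑ b : Fin n, ∑ b' : Fin n,
      ((if a = a' ∧ b = b' then (1 : ℝ) else 0) * (if a = b ∧ a' = b' then (1 : ℝ) else 0))) = 1 := by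
    intro a
    rw [Finset.sum_eq_single a, Finset.sum_eq_single a, Finset.sum_eq_single a]
    · simp
    · intro b' _ hb'
      rw [if_neg (fun h => hb' h.2.symm), zero_mul]
    · intro h; exact absurd (Finset.mem_univ _) h
    · intro b _ hb
      apply Finset.sum_eq_zero
      intro b' _
      by_cases h2 : a = b ∧ a = b'
      · exact absurd h2.1.symm hb
      · rw [if_neg h2, mul_zero]
    · intro h; exact absurd (Finset.mem_univ _) h
    · intro a' _ ha'
      apply Finset.sum_eq_zero
      intro b _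
      apply Finset.sum_eq_zero
      intro b' _
      rw [if_neg (fun h => ha' h.1.symm), zero_mul]
    · intro h; exact absurd (Finset.mem_univ _) h
  rw [Finset.sum_congr rfl (fun a _ => h a)]
  simp

/-- the two coefficients -/
noncomputable def ab : List ℝ → ℝ × ℝ
  | [] => (0, 0)
  | [x] => (1, x)
  | x :: y :: w => ((n : ℝ) ^ 2 * (ab (y :: w)).1 + n * (ab (y :: w)).2,
      x * (n * (ab (y :: w)).1 + (n : ℝ) ^ 2 * (ab (y :: w)).2))

theorem prod_map_Wm (z : Fin n) (w : List ℝ) (hw : w ≠ []) (s : St n) :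
    (w.map (Wm n)).prod s (z, z, z, z) = (ab n w).1 * i1 n s + (ab n w).2 * i2 n s := by
  induction w generalizing s with
  | nil => exact absurd rfl hw
  | cons x w ih =>
    cases w with
    | nil =>
      simp [ab, Wm, i1, i2]
    | cons y w =>
      rw [List.map_cons, List.prod_cons, Matrix.mul_apply]
      have ih' := ih (by simp)
      rw [Finset.sum_congr rfl (fun s' _ => by rw [ih' s'])]
      have e : ∀ s' : St n, Wm n x s s' *
          ((ab n (y :: w)).1 * i1 n s' + (ab n (y :: w)).2 * i2 n s') =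
          i1 n s * ((ab n (y :: w)).1 * i1 n s' + (ab n (y :: w)).2 * (i1 n s' * i2 n s')) +
          x * i2 n s * ((ab n (y :: w)).1 * (i1 n s' * i2 n s') + (ab n (y :: w)).2 * i2 n s') := by
        intro s'
        unfold Wm
        have e1 := i1_sq n s'
        have e2 := i2_sq n s'
        calc (i1 n s * i1 n s' + x * (i2 n s * i2 n s')) *
              ((ab n (y :: w)).1 * i1 n s' + (ab n (y :: w)).2 * i2 n s')
            = i1 n s * ((ab n (y :: w)).1 * (i1 n s' * i1 n s') +
                (ab n (y :: w)).2 * (i1 n s' * i2 n s')) +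
              x * i2 n s * ((ab n (y :: w)).1 * (i1 n s' * i2 n s') +
                (ab n (y :: w)).2 * (i2 n s' * i2 n s')) := by ring
          _ = _ := by rw [e1, e2]
      rw [Finset.sum_congr rfl (fun s' _ => e s')]
      rw [Finset.sum_add_distrib, ← Finset.mul_sum, ← Finset.mul_sum, Finset.sum_add_distrib,
        Finset.sum_add_distrib, ← Finset.mul_sum, ← Finset.mul_sum, ← Finset.mul_sum,
        ← Finset.mul_sum, sum_i1, sum_i2, sum_i1_i2]
      simp only [ab]
      ring

/-- all suffix products lie in `[1/m, m]`, all entries positive -/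
def Bal (m : ℝ) : List ℝ → Prop
  | [] => True
  | x :: w => 0 < x ∧ 1 / m ≤ (x :: w).prod ∧ (x :: w).prod ≤ m ∧ Bal m w

theorem Bal.pos {m : ℝ} {w : List ℝ} (h : Bal m w) : 0 < w.prod := by
  induction w with
  | nil => simp
  | cons x w ih =>
    rw [List.prod_cons]
    exact mul_pos h.1 (ih h.2.2.2)

theorem ab_bound (hn : 1 ≤ n) {m : ℝ} (hm : 1 ≤ m) (w : List ℝ) (hw : w ≠ []) (hb : Bal m w) :
    0 ≤ (ab n w).1 ∧ 0 ≤ (ab n w).2 ∧
    (ab n w).1 + (ab n w).2 / w.prod ≤ 2 * ((n : ℝ) ^ 2 * (1 + m / n)) ^ (w.length - 1) := by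
  have hn' : (0 : ℝ) < n := by exact_mod_cast hn
  induction w with
  | nil => exact absurd rfl hw
  | cons x w ih =>
    cases w with
    | nil =>
      have hx := hb.1
      simp only [ab, List.prod_cons, List.prod_nil, mul_one, List.length_cons, List.length_nil]
      refine ⟨by norm_num, hx.le, ?_⟩
      rw [div_self hx.ne']
      norm_num
    | cons y w =>
      obtain ⟨ih1, ih2, ih3⟩ := ih (by simp) hb.2.2.2
      have hx := hb.1
      have hb' : Bal m (y :: w) := hb.2.2.2
      have hpos : 0 < (y :: w).prod := hb'.pos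
      have hpu : (y :: w).prod ≤ m := hb'.2.2.1
      have hpl : 1 / m ≤ (y :: w).prod := hb'.2.1
      set α := (ab n (y :: w)).1
      set β := (ab n (y :: w)).2
      set π := (y :: w).prod with hπ
      have e1 : (ab n (x :: y :: w)).1 = (n : ℝ) ^ 2 * α + n * β := rfl
      have e2 : (ab n (x :: y :: w)).2 = x * (n * α + (n : ℝ) ^ 2 * β) := rfl
      have e3 : (x :: y :: w).prod = x * π := by rw [List.prod_cons]
      rw [e1, e2, e3]
      refine ⟨by positivity, by positivity, ?_⟩
      have e4 : x * (n * α + (n : ℝ) ^ 2 * β) / (x * π) = n * α / π + (n : ℝ) ^ 2 * (β / π) := by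
        field_simp
      rw [e4]
      have e5 : (n : ℝ) * β ≤ n * m * (β / π) := by
        have : β = π * (β / π) := by field_simp
        have h1 : 0 ≤ β / π := by positivity
        calc (n : ℝ) * β = n * (π * (β / π)) := by rw [← this]
          _ ≤ n * (m * (β / π)) := by gcongr
          _ = _ := by ring
      have e6 : n * α / π ≤ n * m * α := by
        rw [div_le_iff₀ hpos]
        have h2 : 1 ≤ m * π := by
          have h3 : (0 : ℝ) < m := by linarith
          rw [div_le_iff₀ h3] at hpl
          linarith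
        have h3 : 0 ≤ n * α := by positivity
        calc (n : ℝ) * α = n * α * 1 := by ring
          _ ≤ n * α * (m * π) := by gcongr
          _ = n * m * α * π := by ring
      have e7 : (n : ℝ) ^ 2 * α + n * β + (n * α / π + (n : ℝ) ^ 2 * (β / π)) ≤
          ((n : ℝ) ^ 2 * (1 + m / n)) * (α + β / π) := by
        have : ((n : ℝ) ^ 2 * (1 + m / n)) = (n : ℝ) ^ 2 + n * m := by
          field_simp
        rw [this]
        linarith
      refine e7.trans ?_
      have e8 : (x :: y :: w).length - 1 = ((y :: w).length - 1) + 1 := by simp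
      rw [e8, pow_succ]
      calc ((n : ℝ) ^ 2 * (1 + m / n)) * (α + β / π)
          ≤ ((n : ℝ) ^ 2 * (1 + m / n)) *
            (2 * ((n : ℝ) ^ 2 * (1 + m / n)) ^ ((y :: w).length - 1)) := by
            apply mul_le_mul_of_nonneg_left ih3
            positivity
        _ = _ := by ring

theorem prod_map_Wm_le (hn : 1 ≤ n) (z : Fin n) {m : ℝ} (hm : 1 ≤ m) (w : List ℝ)
    (hw : w ≠ []) (hb : Bal m w) :
    (w.map (Wm n)).prod (z, z, z, z) (z, z, z, z) ≤
      2 * m * ((n : ℝ) ^ 2 * (1 + m / n)) ^ (w.length - 1) := by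
  rw [prod_map_Wm n z w hw]
  obtain ⟨h1, h2, h3⟩ := ab_bound n hn hm w hw hb
  have hi1 : i1 n (z, z, z, z) = 1 := by simp [i1]
  have hi2 : i2 n (z, z, z, z) = 1 := by simp [i2]
  rw [hi1, hi2, mul_one, mul_one]
  have hpos := hb.pos
  have hpu : w.prod ≤ m := by
    cases w with
    | nil => exact absurd rfl hw
    | cons x w => exact hb.2.2.1
  have e : (ab n w).2 = w.prod * ((ab n w).2 / w.prod) := by field_simp
  have h4 : 0 ≤ (ab n w).2 / w.prod := by positivity
  calc (ab n w).1 + (ab n w).2 ≤ m * (ab n w).1 + m * ((ab n w).2 / w.prod) := by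
        have k1 : (ab n w).1 ≤ m * (ab n w).1 := by nlinarith
        have k2 : (ab n w).2 ≤ m * ((ab n w).2 / w.prod) := by
          calc (ab n w).2 = w.prod * ((ab n w).2 / w.prod) := e
            _ ≤ m * ((ab n w).2 / w.prod) := by gcongr
        linarith
    _ = m * ((ab n w).1 + (ab n w).2 / w.prod) := by ring
    _ ≤ m * (2 * ((n : ℝ) ^ 2 * (1 + m / n)) ^ (w.length - 1)) := by
        apply mul_le_mul_of_nonneg_left h3
        linarith
    _ = _ := by ring

end Transfer

end Crest.Agent.R327
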