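import Mathlib
import Crest.Agent.R327.Gram
import Crest.Agent.R327.Transfer
import Crest.Agent.R327.Paths
import Crest.Agent.R327.RankTools

set_option autoImplicit false
set_option linter.unusedSectionVars false

namespace Crest.Agent.R327

open Matrix

section Paths

variable {n : ℕ}

/-- closed vertex paths based at `z` -/
abbrev Pth (n : ℕ) (z : Fin n) := {p : Fin (n + 1) → Fin n // p 0 = z ∧ p (Fin.last n) = z}

/-- the edge of the path in layer `t` -/
def edge (p : Fin (n + 1) → Fin n) (t : Fin n) : Fin n × Fin n × Fin n :=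
  (t, p t.castSucc, p t.succ)

variable {U : Type*} [DecidableEq U]

/-- image of the edge set -/
def Ep (emb : Fin n × Fin n × Fin n → U) (p : Fin (n + 1) → Fin n) : Finset U :=
  Finset.univ.image (fun t => emb (edge p t))

theorem mem_Ep {emb : Fin n × Fin n × Fin n → U} (hemb : Function.Injective emb)
    (p : Fin (n + 1) → Fin n) (e : Fin n × Fin n × Fin n) :
    emb e ∈ Ep emb p ↔ e = edge p e.1 := by
  unfold Ep
  simp only [Finset.mem_image, Finset.mem_univ, true_and]
  constructor
  · rintro ⟨t, ht⟩
    have h := hemb ht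
    have : t = e.1 := by rw [← h]; rfl
    rw [← this, h]
  · intro h
    exact ⟨e.1, by rw [← h]⟩

theorem edge_injective (p : Fin (n + 1) → Fin n) : Function.Injective (edge p) := by
  intro t t' h
  exact congrArg Prod.fst h

theorem card_P (z : Fin n) (hn : 1 ≤ n) : Fintype.card (Pth n z) = n ^ (n - 1) := by
  have h := ofFn_prod_apply (R := ℕ) n (fun _ : Fin n => (Matrix.of fun (_ _ : Fin n) => (1 : ℕ))) z z
  have hJ : ∀ k : ℕ, (Matrix.of fun (_ _ : Fin n) => (1 : ℕ)) ^ (k + 1) =
      (n ^ k) • (Matrix.of fun (_ _ : Fin n) => (1 : ℕ)) := by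
    intro k
    induction k with
    | zero => simp
    | succ k ih =>
      rw [pow_succ, ih]
      ext i j
      simp [Matrix.mul_apply, pow_succ, mul_comm]
  obtain ⟨k, hk⟩ : ∃ k, n = k + 1 := ⟨n - 1, by omega⟩
  have h1 : (List.ofFn (fun _ : Fin n => (Matrix.of fun (_ _ : Fin n) => (1 : ℕ)))).prod =
      (Matrix.of fun (_ _ : Fin n) => (1 : ℕ)) ^ n := by
    rw [List.ofFn_const, List.prod_replicate]
  rw [h1] at h
  have h2 : ((Matrix.of fun (_ _ : Fin n) => (1 : ℕ)) ^ n) z z = n ^ (n - 1) := by
    have : n = (n - 1) + 1 := by omega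
    conv_lhs => rw [show ((Matrix.of fun (_ _ : Fin n) => (1 : ℕ)) ^ n) =
      ((Matrix.of fun (_ _ : Fin n) => (1 : ℕ)) ^ ((n - 1) + 1)) by rw [← this]]
    rw [hJ]
    simp
  rw [h2] at h
  rw [h, Fintype.card_subtype]
  rw [Finset.card_filter]
  apply Finset.sum_congr rfl
  intro p _
  simp

end Paths

section Layers

variable {n : ℕ} {U : Type*} [Fintype U] [DecidableEq U] {g : U → Bool}
  {emb : Fin n × Fin n × Fin n → U} {τ : Fin n → Bool}

/-- number of layers of a type -/
def lc (τ : Fin n → Bool) (c : Bool) : ℕ := (Finset.univ.filter (fun t => τ t = c)).card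

theorem typ_Ep (hemb : Function.Injective emb) (hg : ∀ v, g (emb v) = τ v.1)
    (p : Fin (n + 1) → Fin n) : typ g (Ep emb p) = (lc τ true, lc τ false) := by
  have key : ∀ c, ((Ep emb p).filter (fun u => g u = c)).card = lc τ c := by
    intro c
    unfold Ep lc
    rw [Finset.filter_image]
    rw [Finset.card_image_of_injective (f := fun t => emb (edge p t)) _
      (hemb.comp (edge_injective p))]
    congr 1
    apply Finset.filter_congr
    intro t _
    rw [hg]
    rfl
  unfold typ
  rw [key, key]

theorem compat_layers (hemb : Function.Injective emb) {a a' b b' : Fin (n + 1) → Fin n}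
    (h : Compat (Ep emb a) (Ep emb a') (Ep emb b) (Ep emb b')) (t : Fin n) :
    (edge a t = edge a' t ∧ edge b t = edge b' t) ∨
    (edge a t ≠ edge a' t ∧ edge a t = edge b t ∧ edge a' t = edge b' t) := by
  obtain ⟨h1, h2⟩ := h
  have mem : ∀ (p q : Fin (n + 1) → Fin n), emb (edge p t) ∈ Ep emb q ↔ edge p t = edge q t := by
    intro p q
    rw [mem_Ep hemb]
    rfl
  by_cases hne : edge a t = edge a' t
  · left
    refine ⟨hne, ?_⟩
    by_contra hb
    have : emb (edge b t) ∈ Ep emb b \ Ep emb b' := by
      rw [Finset.mem_sdiff, mem, mem]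
      exact ⟨rfl, hb⟩
    rw [← h1, Finset.mem_sdiff, mem, mem] at this
    exact this.2 (this.1.trans hne)
  · right
    refine ⟨hne, ?_, ?_⟩
    · have : emb (edge a t) ∈ Ep emb a \ Ep emb a' := by
        rw [Finset.mem_sdiff, mem, mem]
        exact ⟨rfl, hne⟩
      rw [h1, Finset.mem_sdiff, mem] at this
      exact this.1
    · have : emb (edge a' t) ∈ Ep emb a' \ Ep emb a := by
        rw [Finset.mem_sdiff, mem, mem]
        exact ⟨rfl, fun h => hne h.symm⟩
      rw [h2, Finset.mem_sdiff, mem] at this
      exact this.1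

/-- products over sets as powers -/
theorem prod_side (q : Bool → ℝ) (O : Finset U) :
    ∏ u ∈ O, q (g u) = q true ^ (typ g O).1 * q false ^ (typ g O).2 := by
  classical
  rw [← Finset.prod_filter_mul_prod_filter_not O (fun u => g u = true)]
  congr 1
  · rw [Finset.prod_congr rfl (g := fun _ => q true)]
    · simp [typ]
    · intro u hu
      rw [(Finset.mem_filter.1 hu).2]
  · rw [Finset.prod_congr rfl (g := fun _ => q false)]
    · simp [typ]
    · intro u hu
      have := (Finset.mem_filter.1 hu).2
      have h2 : g u = false := by simpa using this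
      rw [h2]

theorem prod_union_layers (hemb : Function.Injective emb) (hg : ∀ v, g (emb v) = τ v.1)
    (q : Bool → ℝ) (a b : Fin (n + 1) → Fin n) :
    ∏ u ∈ Ep emb a ∪ Ep emb b, q (g u) =
      ∏ t : Fin n, q (τ t) ^ (if edge a t = edge b t then 1 else 2) := by
  classical
  have h1 : Ep emb a ∪ Ep emb b =
      Finset.univ.biUnion (fun t : Fin n => ({emb (edge a t), emb (edge b t)} : Finset U)) := by
    ext u
    simp only [Ep, Finset.mem_union, Finset.mem_image, Finset.mem_univ, true_and,
      Finset.mem_biUnion, Finset.mem_insert, Finset.mem_singleton]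
    constructor
    · rintro (⟨t, rfl⟩ | ⟨t, rfl⟩)
      · exact ⟨t, Or.inl rfl⟩
      · exact ⟨t, Or.inr rfl⟩
    · rintro ⟨t, (rfl | rfl)⟩
      · exact Or.inl ⟨t, rfl⟩
      · exact Or.inr ⟨t, rfl⟩
  rw [h1, Finset.prod_biUnion]
  · apply Finset.prod_congr rfl
    intro t _
    have e1 : g (emb (edge a t)) = τ t := hg _
    have e2 : g (emb (edge b t)) = τ t := hg _
    by_cases h : edge a t = edge b t
    · rw [if_pos h, h]
      simp [e2]
    · rw [if_neg h, Finset.prod_pair (fun hh => h (hemb hh)), e1, e2, pow_two]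
  · intro t _ t' _ hne
    rw [Function.onFun, Finset.disjoint_left]
    intro u hu hu'
    simp only [Finset.mem_insert, Finset.mem_singleton] at hu hu'
    apply hne
    rcases hu with rfl | rfl <;> rcases hu' with h | h <;> exact congrArg Prod.fst (hemb h)

theorem prod_sdiff_layers (hemb : Function.Injective emb) (hg : ∀ v, g (emb v) = τ v.1)
    (q : Bool → ℝ) (a a' : Fin (n + 1) → Fin n) :
    ∏ u ∈ Ep emb a' \ Ep emb a, q (g u) =
      ∏ t : Fin n, (if edge a t = edge a' t then 1 else q (τ t)) := by
  classical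
  have h1 : Ep emb a' \ Ep emb a =
      (Finset.univ.filter (fun t : Fin n => edge a t ≠ edge a' t)).image
        (fun t => emb (edge a' t)) := by
    ext u
    simp only [Finset.mem_sdiff, Finset.mem_image, Finset.mem_filter, Finset.mem_univ, true_and]
    constructor
    · rintro ⟨hu, hu2⟩
      simp only [Ep, Finset.mem_image, Finset.mem_univ, true_and] at hu
      obtain ⟨t, rfl⟩ := hu
      refine ⟨t, ?_, rfl⟩
      intro h
      apply hu2
      rw [← h]
      exact Finset.mem_image_of_mem _ (Finset.mem_univ t)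
    · rintro ⟨t, ht, rfl⟩
      refine ⟨Finset.mem_image_of_mem _ (Finset.mem_univ t), ?_⟩
      rw [mem_Ep hemb]
      intro h
      exact ht h.symm
  rw [h1, Finset.prod_image]
  · rw [Finset.prod_filter]
    apply Finset.prod_congr rfl
    intro t _
    have e1 : g (emb (edge a' t)) = τ t := hg _
    by_cases h : edge a t = edge a' t
    · simp [h]
    · simp [h, e1]
  · intro t _ t' _ h
    exact edge_injective a' (hemb h)

end Layers

end Crest.Agent.R327
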