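import Mathlib
import Crest.Agent.R327.Lower

set_option autoImplicit false
set_option linter.unusedSectionVars false

namespace Crest.Agent.R327

open Matrix

section QuadSum

variable {n : ℕ}

/-- state path of four paths -/
def quad (a a' b b' : Fin (n + 1) → Fin n) (t : Fin (n + 1)) : St n := (a t, a' t, b t, b' t)

theorem i1_nonneg (s : St n) : 0 ≤ i1 n s := by unfold i1; split_ifs <;> norm_num
theorem i2_nonneg (s : St n) : 0 ≤ i2 n s := by unfold i2; split_ifs <;> norm_num

theorem Wm_nonneg {x : ℝ} (hx : 0 ≤ x) (s s' : St n) : 0 ≤ Wm n x s s' := by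
  unfold Wm
  have h1 := i1_nonneg s
  have h2 := i2_nonneg s
  have h3 := i1_nonneg s'
  have h4 := i2_nonneg s'
  positivity

theorem quad_sum_le (z : Fin n) (W : Fin n → Matrix (St n) (St n) ℝ)
    (hW : ∀ t s s', 0 ≤ W t s s') :
    ∑ a : Pth n z, ∑ a' : Pth n z, ∑ b : Pth n z, ∑ b' : Pth n z,
      ∏ t : Fin n, W t (quad a.1 a'.1 b.1 b'.1 t.castSucc) (quad a.1 a'.1 b.1 b'.1 t.succ) ≤
    (List.ofFn W).prod (z, z, z, z) (z, z, z, z) := by
  classical
  rw [ofFn_prod_apply]
  have h1 : ∑ a : Pth n z, ∑ a' : Pth n z, ∑ b : Pth n z, ∑ b' : Pth n z,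
      ∏ t : Fin n, W t (quad a.1 a'.1 b.1 b'.1 t.castSucc) (quad a.1 a'.1 b.1 b'.1 t.succ) =
      ∑ x : Pth n z × Pth n z × Pth n z × Pth n z,
        ∏ t : Fin n, W t (quad x.1.1 x.2.1.1 x.2.2.1.1 x.2.2.2.1 t.castSucc)
          (quad x.1.1 x.2.1.1 x.2.2.1.1 x.2.2.2.1 t.succ) := by
    simp only [Fintype.sum_prod_type]
  rw [h1]
  have hinj : Function.Injective (fun x : Pth n z × Pth n z × Pth n z × Pth n z =>
      quad x.1.1 x.2.1.1 x.2.2.1.1 x.2.2.2.1) := by
    rintro ⟨a, a', b, b'⟩ ⟨c, c', d, d'⟩ h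
    simp only at h
    have h0 : ∀ t, (a.1 t, a'.1 t, b.1 t, b'.1 t) = (c.1 t, c'.1 t, d.1 t, d'.1 t) :=
      fun t => congrFun h t
    simp only [Prod.mk.injEq] at h0 ⊢
    refine ⟨Subtype.ext (funext fun t => (h0 t).1), Subtype.ext (funext fun t => (h0 t).2.1),
      Subtype.ext (funext fun t => (h0 t).2.2.1), Subtype.ext (funext fun t => (h0 t).2.2.2)⟩
  rw [← Finset.sum_filter]
  have h2 : ∑ x : Pth n z × Pth n z × Pth n z × Pth n z,
        ∏ t : Fin n, W t (quad x.1.1 x.2.1.1 x.2.2.1.1 x.2.2.2.1 t.castSucc)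
          (quad x.1.1 x.2.1.1 x.2.2.1.1 x.2.2.2.1 t.succ) =
      ∑ s ∈ Finset.univ.image (fun x : Pth n z × Pth n z × Pth n z × Pth n z =>
        quad x.1.1 x.2.1.1 x.2.2.1.1 x.2.2.2.1), ∏ t : Fin n, W t (s t.castSucc) (s t.succ) := by
    rw [Finset.sum_image (fun x _ y _ h => hinj h)]
  rw [h2]
  apply Finset.sum_le_sum_of_subset_of_nonneg
  · intro s hs
    simp only [Finset.mem_image, Finset.mem_univ, true_and] at hs
    obtain ⟨⟨a, a', b, b'⟩, rfl⟩ := hs
    simp only [Finset.mem_filter, Finset.mem_univ, true_and]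
    constructor
    · show (a.1 0, a'.1 0, b.1 0, b'.1 0) = (z, z, z, z)
      rw [a.2.1, a'.2.1, b.2.1, b'.2.1]
    · show (a.1 (Fin.last n), a'.1 (Fin.last n), b.1 (Fin.last n), b'.1 (Fin.last n)) = (z, z, z, z)
      rw [a.2.2, a'.2.2, b.2.2, b'.2.2]
  · intro s _ _
    exact Finset.prod_nonneg (fun t _ => hW t _ _)

end QuadSum

section Main

variable {n : ℕ} {U : Type*} [Fintype U] [DecidableEq U] {g : U → Bool}
  {emb : Fin n × Fin n × Fin n → U} {τ : Fin n → Bool} {K : Bool → ℕ}

theorem card_quad_le (hemb : Function.Injective emb) (hg : ∀ v, g (emb v) = τ v.1)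
    (hn : 1 ≤ n) (hK : ∀ c, n ≤ K c) (hN : ∀ c, K c + 3 * n < NN g c)
    {a a' b b' : Fin (n + 1) → Fin n}
    (h : Compat (Ep emb a) (Ep emb a') (Ep emb b) (Ep emb b')) :
    ((Finset.univ.filter (fun Z : Finset U => typ g Z = (K true, K false) ∧
          (Ep emb a' \ Ep emb a) ⊆ Z ∧ Disjoint Z (Ep emb a ∪ Ep emb b))).card : ℝ) ≤
      (Fintype.card (Lev g (K true, K false)) : ℝ) *
        ∏ t : Fin n, ((((NN g (τ t) : ℝ) - K (τ t)) / ((NN g (τ t) - 3 * n : ℕ) : ℝ)) ^ 2 *
          Wm n ((K (τ t) : ℝ) / ((NN g (τ t) : ℝ) - K (τ t)))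
            (quad a a' b b' t.castSucc) (quad a a' b b' t.succ)) := by
  classical
  set I := Ep emb a' \ Ep emb a with hI
  set O := Ep emb a ∪ Ep emb b with hO
  have hIO : Disjoint I O := by
    rw [hO, Finset.disjoint_union_right]
    refine ⟨Finset.sdiff_disjoint, ?_⟩
    rw [hI, h.2]
    exact Finset.sdiff_disjoint
  -- cardinalities
  have cardEp : ∀ p : Fin (n + 1) → Fin n, (Ep emb p).card = n := by
    intro p
    unfold Ep
    rw [Finset.card_image_of_injective (f := fun t => emb (edge p t)) _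
      (hemb.comp (edge_injective p))]
    simp
  have cI : I.card ≤ n := by
    rw [← cardEp a']
    exact Finset.card_le_card Finset.sdiff_subset
  have cO : O.card ≤ 2 * n := by
    refine (Finset.card_union_le _ _).trans ?_
    rw [cardEp, cardEp]; omega
  have tI := typ_sum g I
  have tO := typ_sum g O
  rw [card_constraint g I O hIO (K true) (K false) (by have := hK true; omega)
    (by have := hK false; omega)]
  have bT := choose_both_le (NN g true) (NN g true - 3 * n) (K true) (typ g I).1 (typ g O).1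
    (by have := hN true; omega) (by have := hN true; omega) (by have := hN true; omega)
    (by have := hK true; omega)
  have bF := choose_both_le (NN g false) (NN g false - 3 * n) (K false) (typ g I).2 (typ g O).2
    (by have := hN false; omega) (by have := hN false; omega) (by have := hN false; omega)
    (by have := hK false; omega)
  set q : Bool → ℝ := fun c => ((NN g c : ℝ) - K c) / ((NN g c - 3 * n : ℕ) : ℝ) with hq
  set r : Bool → ℝ := fun c => (K c : ℝ) / ((NN g c - 3 * n : ℕ) : ℝ) with hr
  have hNK : ∀ c, (0 : ℝ) < (NN g c : ℝ) - K c := by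
    intro c
    have h1 : K c < NN g c := by have := hN c; omega
    have : (K c : ℝ) < NN g c := by exact_mod_cast h1
    linarith
  have hN' : ∀ c, (0 : ℝ) < ((NN g c - 3 * n : ℕ) : ℝ) := by
    intro c
    have h1 : 0 < NN g c - 3 * n := by have := hN c; omega
    exact_mod_cast h1
  have hKpos : ∀ c, (0 : ℝ) < (K c : ℝ) := by
    intro c
    have : 0 < K c := by have := hK c; omega
    exact_mod_cast this
  have hqpos : ∀ c, 0 < q c := fun c => div_pos (hNK c) (hN' c)
  have hrpos : ∀ c, 0 < r c := fun c => div_pos (hKpos c) (hN' c)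
  have step1 : (((NN g true - (typ g O).1 - (typ g I).1).choose (K true - (typ g I).1) *
      (NN g false - (typ g O).2 - (typ g I).2).choose (K false - (typ g I).2) : ℕ) : ℝ) ≤
      ((NN g true).choose (K true) * q true ^ (typ g O).1 * r true ^ (typ g I).1) *
      ((NN g false).choose (K false) * q false ^ (typ g O).2 * r false ^ (typ g I).2) := by
    rw [Nat.cast_mul]
    exact mul_le_mul bT bF (Nat.cast_nonneg _) ((Nat.cast_nonneg _).trans bT)
  refine step1.trans ?_
  have e0 : (Fintype.card (Lev g (K true, K false)) : ℝ) =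
      ((NN g true).choose (K true) : ℝ) * ((NN g false).choose (K false) : ℝ) := by
    rw [card_lev]; push_cast; rfl
  have e1 : ((NN g true).choose (K true) * q true ^ (typ g O).1 * r true ^ (typ g I).1) *
      ((NN g false).choose (K false) * q false ^ (typ g O).2 * r false ^ (typ g I).2) =
      (Fintype.card (Lev g (K true, K false)) : ℝ) *
        ((∏ u ∈ O, q (g u)) * (∏ u ∈ I, r (g u))) := by
    rw [prod_side q O, prod_side r I, e0]
    ring
  rw [e1]
  apply mul_le_mul_of_nonneg_left _ (Nat.cast_nonneg _)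
  rw [hO, hI, prod_union_layers hemb hg q a b, prod_sdiff_layers hemb hg r a a',
    ← Finset.prod_mul_distrib]
  apply Finset.prod_le_prod
  · intro t _
    have h1 := hqpos (τ t)
    have h2 := hrpos (τ t)
    apply mul_nonneg (by positivity)
    split_ifs
    · norm_num
    · exact h2.le
  · intro t _
    set c := τ t with hc
    have h1 := hqpos c
    have h2 := hrpos c
    set ς : ℝ := (K c : ℝ) / ((NN g c : ℝ) - K c) with hς
    have hςpos : 0 < ς := div_pos (hKpos c) (hNK c)
    have qdef : ((NN g c : ℝ) - K c) / ((NN g c - 3 * n : ℕ) : ℝ) = q c := rfl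
    rw [qdef]
    have i11 := i1_nonneg (quad a a' b b' t.castSucc)
    have i12 := i1_nonneg (quad a a' b b' t.succ)
    have i21 := i2_nonneg (quad a a' b b' t.castSucc)
    have i22 := i2_nonneg (quad a a' b b' t.succ)
    have edge_iff : ∀ p p' : Fin (n + 1) → Fin n, edge p t = edge p' t ↔
        (p t.castSucc = p' t.castSucc ∧ p t.succ = p' t.succ) := by
      intro p p'
      unfold edge
      simp
    have key1 : 1 ≤ q c * (1 + ς) := by
      have hNle : ((NN g c - 3 * n : ℕ) : ℝ) ≤ (NN g c : ℝ) := by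
        exact_mod_cast Nat.sub_le _ _
      have : q c * (1 + ς) = (NN g c : ℝ) / ((NN g c - 3 * n : ℕ) : ℝ) := by
        simp only [hq, hς]
        have k1 := (hNK c).ne'
        have k2 := (hN' c).ne'
        field_simp
        ring
      rw [this, le_div_iff₀ (hN' c)]
      linarith
    have key2 : q c ^ 2 * ς = q c * r c := by
      simp only [hq, hr, hς]
      have k1 := (hNK c).ne'
      have k2 := (hN' c).ne'
      field_simp
    rcases compat_layers hemb h t with ⟨ha, hb⟩ | ⟨hne, hab, hab'⟩
    · have j1 : i1 n (quad a a' b b' t.castSucc) = 1 := by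
        unfold i1 quad
        rw [if_pos ⟨((edge_iff _ _).1 ha).1, ((edge_iff _ _).1 hb).1⟩]
      have j2 : i1 n (quad a a' b b' t.succ) = 1 := by
        unfold i1 quad
        rw [if_pos ⟨((edge_iff _ _).1 ha).2, ((edge_iff _ _).1 hb).2⟩]
      rw [if_pos ha, mul_one]
      by_cases hab : edge a t = edge b t
      · have hab' : edge a' t = edge b' t := ha.symm.trans (hab.trans hb)
        have j3 : i2 n (quad a a' b b' t.castSucc) = 1 := by
          unfold i2 quad
          rw [if_pos ⟨((edge_iff _ _).1 hab).1, ((edge_iff _ _).1 hab').1⟩]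
        have j4 : i2 n (quad a a' b b' t.succ) = 1 := by
          unfold i2 quad
          rw [if_pos ⟨((edge_iff _ _).1 hab).2, ((edge_iff _ _).1 hab').2⟩]
        rw [if_pos hab]
        unfold Wm
        rw [j1, j2, j3, j4, pow_one, mul_one, mul_one]
        calc q c = q c * 1 := by ring
          _ ≤ q c * (q c * (1 + ς)) := by gcongr
          _ = q c ^ 2 * (1 + ς) := by ring
      · rw [if_neg hab]
        unfold Wm
        rw [j1, j2, mul_one]
        have : 0 ≤ ς * (i2 n (quad a a' b b' t.castSucc) * i2 n (quad a a' b b' t.succ)) := by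
          positivity
        calc q c ^ 2 = q c ^ 2 * 1 := by ring
          _ ≤ _ := by
            apply mul_le_mul_of_nonneg_left _ (by positivity)
            linarith
    · have j3 : i2 n (quad a a' b b' t.castSucc) = 1 := by
        unfold i2 quad
        rw [if_pos ⟨((edge_iff _ _).1 hab).1, ((edge_iff _ _).1 hab').1⟩]
      have j4 : i2 n (quad a a' b b' t.succ) = 1 := by
        unfold i2 quad
        rw [if_pos ⟨((edge_iff _ _).1 hab).2, ((edge_iff _ _).1 hab').2⟩]
      rw [if_pos hab, if_neg hne, pow_one]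
      unfold Wm
      rw [j3, j4, mul_one, mul_one]
      have : 0 ≤ i1 n (quad a a' b b' t.castSucc) * i1 n (quad a a' b b' t.succ) := by
        positivity
      calc q c * r c = q c ^ 2 * ς := key2.symm
        _ ≤ _ := by
          apply mul_le_mul_of_nonneg_left _ (by positivity)
          linarith

end Main

end Crest.Agent.R327
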