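import Mathlib
import Crest.Agent.R327.LowerRank

set_option autoImplicit false
set_option linter.unusedSectionVars false

namespace Crest.Agent.R327

open Matrix

section Main

variable {n : ℕ} {U : Type*} [Fintype U] [DecidableEq U] {g : U → Bool}
  {emb : Fin n × Fin n × Fin n → U} {τ : Fin n → Bool} {K : Bool → ℕ}

theorem card_avoid_ge (hemb : Function.Injective emb) (hg : ∀ v, g (emb v) = τ v.1)
    (hn : 1 ≤ n) (hN : ∀ c, K c + 3 * n < NN g c)
    (p : Fin (n + 1) → Fin n) :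
    (Fintype.card (Lev g (K true, K false)) : ℝ) *
        ∏ t : Fin n, (((NN g (τ t) : ℝ) - K (τ t) - n) / (NN g (τ t) : ℝ)) ≤
    ((Finset.univ.filter (fun Z : Finset U => typ g Z = (K true, K false) ∧
      Disjoint Z (Ep emb p))).card : ℝ) := by
  classical
  have e1 : (Finset.univ.filter (fun Z : Finset U => typ g Z = (K true, K false) ∧
      Disjoint Z (Ep emb p))).card =
      (NN g true - (typ g (Ep emb p)).1).choose (K true) *
      (NN g false - (typ g (Ep emb p)).2).choose (K false) := by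
    have h := card_constraint g ∅ (Ep emb p) (Finset.disjoint_empty_left _) (K true) (K false)
      (by simp [typ]) (by simp [typ])
    have e : (Finset.univ.filter (fun Z : Finset U => typ g Z = (K true, K false) ∧ ∅ ⊆ Z ∧
        Disjoint Z (Ep emb p))) =
        (Finset.univ.filter (fun Z : Finset U => typ g Z = (K true, K false) ∧
          Disjoint Z (Ep emb p))) := by
      apply Finset.filter_congr
      intro Z _
      simp
    rw [e] at h
    rw [h]
    simp [typ]
  rw [e1]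
  set η : Bool → ℝ := fun c => ((NN g c : ℝ) - K c - n) / (NN g c : ℝ) with hη
  have hprod : ∏ t : Fin n, (((NN g (τ t) : ℝ) - K (τ t) - n) / (NN g (τ t) : ℝ)) =
      η true ^ (typ g (Ep emb p)).1 * η false ^ (typ g (Ep emb p)).2 := by
    rw [← prod_side η (Ep emb p)]
    have h := prod_union_layers (g := g) hemb hg η p p
    rw [Finset.union_self] at h
    rw [h]
    apply Finset.prod_congr rfl
    intro t _
    rw [if_pos rfl, pow_one]
  rw [hprod, card_lev]
  have cardEp : (Ep emb p).card = n := by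
    unfold Ep
    rw [Finset.card_image_of_injective (f := fun t => emb (edge p t)) _
      (hemb.comp (edge_injective p))]
    simp
  have tp := typ_sum g (Ep emb p)
  rw [cardEp] at tp
  have hηnn : ∀ c, 0 ≤ η c := by
    intro c
    have h1 : (K c : ℝ) + 3 * n < NN g c := by exact_mod_cast hN c
    have h2 : (0 : ℝ) ≤ n := Nat.cast_nonneg _
    apply div_nonneg _ (Nat.cast_nonneg _)
    linarith
  have key : ∀ (c : Bool) (k : ℕ), k ≤ n →
      ((NN g c).choose (K c) : ℝ) * η c ^ k ≤ ((NN g c - k).choose (K c) : ℝ) := by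
    intro c k hk
    have hNc := hN c
    refine le_trans ?_ (choose_avoid_ge (NN g c) (K c) k (by omega) (by omega))
    apply mul_le_mul_of_nonneg_left _ (Nat.cast_nonneg _)
    apply pow_le_pow_left₀ (hηnn c)
    apply div_le_div_of_nonneg_right _ (Nat.cast_nonneg _)
    have : (k : ℝ) ≤ n := by exact_mod_cast hk
    linarith
  have k1 := key true (typ g (Ep emb p)).1 (by omega)
  have k2 := key false (typ g (Ep emb p)).2 (by omega)
  push_cast
  calc ((NN g true).choose (K true) : ℝ) * ((NN g false).choose (K false)) *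
      (η true ^ (typ g (Ep emb p)).1 * η false ^ (typ g (Ep emb p)).2)
      = (((NN g true).choose (K true) : ℝ) * η true ^ (typ g (Ep emb p)).1) *
        (((NN g false).choose (K false)) * η false ^ (typ g (Ep emb p)).2) := by ring
    _ ≤ _ := by
      apply mul_le_mul k1 k2 _ (Nat.cast_nonneg _)
      have := hηnn false
      positivity

theorem ratio_ge (hn : 16 ≤ n) (hN : ∀ c, K c + n ^ 3 ≤ NN g c) :
    (1 / 2 : ℝ) * (∏ t : Fin n, (((NN g (τ t) : ℝ) - K (τ t)) /
        ((NN g (τ t) - 3 * n : ℕ) : ℝ)) ^ 2) ≤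
      (∏ t : Fin n, (((NN g (τ t) : ℝ) - K (τ t) - n) / (NN g (τ t) : ℝ))) ^ 2 := by
  have hn' : (16 : ℝ) ≤ n := by exact_mod_cast hn
  have hn3 : 3 * n < n ^ 3 := by nlinarith [hn, sq_nonneg n, Nat.pos_of_ne_zero (show n ≠ 0 by omega)]
  have hpos : ∀ c, (0 : ℝ) < ((NN g c : ℝ) - K c) / ((NN g c - 3 * n : ℕ) : ℝ) := by
    intro c
    have h1 := hN c
    have h2 : (K c : ℝ) < NN g c := by
      have : K c < NN g c := by omega
      exact_mod_cast this
    have h3 : 0 < NN g c - 3 * n := by omega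
    have h4 : (0 : ℝ) < ((NN g c - 3 * n : ℕ) : ℝ) := by exact_mod_cast h3
    apply div_pos _ h4
    linarith
  have hle : ∀ c, (1 - 4 / (n : ℝ) ^ 2) * (((NN g c : ℝ) - K c) / ((NN g c - 3 * n : ℕ) : ℝ)) ≤
      (((NN g c : ℝ) - K c - n) / (NN g c : ℝ)) := by
    intro c
    have h1 := hN c
    have h3 : 3 * n ≤ NN g c := by omega
    have h2 : (K c : ℝ) + n ^ 3 ≤ NN g c := by exact_mod_cast h1
    rw [Nat.cast_sub h3]
    push_cast
    set N : ℝ := (NN g c : ℝ)
    set k : ℝ := (K c : ℝ)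
    have hk : 0 ≤ k := Nat.cast_nonneg _
    set x : ℝ := (n : ℝ) with hx
    have hx3 : 0 < x ^ 3 := by positivity
    have hNpos : 0 < N := by linarith
    have hn3' : (3 : ℝ) * x < x ^ 3 := by rw [hx]; exact_mod_cast hn3
    have hN3 : 0 < N - 3 * x := by linarith
    rw [mul_div_assoc', div_le_div_iff₀ hN3 hNpos]
    -- (1 - 4/x²)(N-k) N ≤ (N-k-x)(N-3x)
    have hx2 : 0 < x ^ 2 := by positivity
    have e : (1 - 4 / x ^ 2) * (N - k) * N = (N - k) * N - 4 * ((N - k) * N) / x ^ 2 := by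
      field_simp
    rw [e]
    have h5 : x ^ 3 ≤ N - k := by linarith
    have h6 : x * N * x ^ 2 ≤ (N - k) * N := by
      have : x * N * x ^ 2 = x ^ 3 * N := by ring
      rw [this]
      exact mul_le_mul_of_nonneg_right h5 hNpos.le
    have h7 : x * N ≤ (N - k) * N / x ^ 2 := by
      rw [le_div_iff₀ hx2]; exact h6
    have h8 : 4 * ((N - k) * N) / x ^ 2 = 4 * ((N - k) * N / x ^ 2) := by ring
    rw [h8]
    have h9 : 3 * x * (N - k) ≤ 3 * (x * N) := by nlinarith
    nlinarith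
  -- product
  have h1 : (0 : ℝ) ≤ 1 - 4 / (n : ℝ) ^ 2 := by
    rw [sub_nonneg, div_le_one (by positivity)]
    nlinarith
  have h2 : (1 - 4 / (n : ℝ) ^ 2) ^ n * (∏ t : Fin n, (((NN g (τ t) : ℝ) - K (τ t)) /
        ((NN g (τ t) - 3 * n : ℕ) : ℝ))) ≤
      ∏ t : Fin n, (((NN g (τ t) : ℝ) - K (τ t) - n) / (NN g (τ t) : ℝ)) := by
    have e : (1 - 4 / (n : ℝ) ^ 2) ^ n = ∏ _t : Fin n, (1 - 4 / (n : ℝ) ^ 2) := by simp
    rw [e, ← Finset.prod_mul_distrib]
    apply Finset.prod_le_prod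
    · intro t _
      exact mul_nonneg h1 (hpos _).le
    · intro t _
      exact hle _
  have h3 : (3 / 4 : ℝ) ≤ (1 - 4 / (n : ℝ) ^ 2) ^ n := by
    have hb := one_add_mul_le_pow (a := -(4 / (n : ℝ) ^ 2)) (by linarith) n
    have e : (1 : ℝ) + n * (-(4 / (n : ℝ) ^ 2)) = 1 - 4 / n := by
      field_simp
      ring
    rw [e] at hb
    have h4 : 4 / (n : ℝ) ≤ 1 / 4 := by
      rw [div_le_div_iff₀ (by positivity) (by norm_num)]
      linarith
    have e2 : (1 : ℝ) + -(4 / (n : ℝ) ^ 2) = 1 - 4 / (n : ℝ) ^ 2 := by ring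
    rw [e2] at hb
    linarith
  rw [Finset.prod_pow]
  set A := ∏ t : Fin n, (((NN g (τ t) : ℝ) - K (τ t)) / ((NN g (τ t) - 3 * n : ℕ) : ℝ)) with hA
  set B := ∏ t : Fin n, (((NN g (τ t) : ℝ) - K (τ t) - n) / (NN g (τ t) : ℝ)) with hB
  have hApos : 0 < A := Finset.prod_pos (fun t _ => hpos _)
  have h4 : 3 / 4 * A ≤ B := le_trans (mul_le_mul_of_nonneg_right h3 hApos.le) h2
  have h5 : 0 ≤ 3 / 4 * A := by positivity
  nlinarith [mul_le_mul h4 h4 h5 (h5.trans h4)]

theorem rank_lower (hemb : Function.Injective emb) (hg : ∀ v, g (emb v) = τ v.1) (z : Fin n)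
    (hn : 16 ≤ n) (hK : ∀ c, n ≤ K c) (hN : ∀ c, K c + n ^ 3 ≤ NN g c) {m : ℝ} (hm : 1 ≤ m)
    (hb : Bal m (List.ofFn (fun t : Fin n => (K (τ t) : ℝ) / ((NN g (τ t) : ℝ) - K (τ t))))) :
    (Fintype.card (Lev g (K true, K false)) : ℝ) / (4 * m * Real.exp m) ≤
      ((cntR g (fun p : Pth n z => Ep emb p.1) (K true, K false)
        ((K true, K false) + (lc τ true, lc τ false))).rank : ℝ) := by
  classical
  have hn1 : 1 ≤ n := by omega
  have hn3 : 3 * n < n ^ 3 := by nlinarith [hn, sq_nonneg n, Nat.pos_of_ne_zero (show n ≠ 0 by omega)]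
  have hN2 : ∀ c, K c + 3 * n < NN g c := fun c => by have := hN c; omega
  set T : ℕ × ℕ := (lc τ true, lc τ false) with hT
  set A : ℕ × ℕ := (K true, K false) with hA
  set E : Pth n z → Finset U := fun p => Ep emb p.1 with hE
  have hET : ∀ p, typ g (E p) = T := fun p => typ_Ep hemb hg p.1
  set M := cntR g E A (A + T) with hM
  set D0 : ℝ := (Fintype.card (Lev g A) : ℝ) with hD0
  set Q2 : ℝ := ∏ t : Fin n, (((NN g (τ t) : ℝ) - K (τ t)) /
        ((NN g (τ t) - 3 * n : ℕ) : ℝ)) ^ 2 with hQ2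
  set H : ℝ := ∏ t : Fin n, (((NN g (τ t) : ℝ) - K (τ t) - n) / (NN g (τ t) : ℝ)) with hH
  have hpos : ∀ c, (0 : ℝ) < ((NN g c : ℝ) - K c) / ((NN g c - 3 * n : ℕ) : ℝ) := by
    intro c
    have h1 := hN2 c
    have h2 : (K c : ℝ) < NN g c := by
      have : K c < NN g c := by omega
      exact_mod_cast this
    have h3 : 0 < NN g c - 3 * n := by omega
    have h4 : (0 : ℝ) < ((NN g c - 3 * n : ℕ) : ℝ) := by exact_mod_cast h3
    apply div_pos _ h4
    linarith
  have hQ2pos : 0 < Q2 := Finset.prod_pos (fun t _ => by have := hpos (τ t); positivity)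
  have hD0pos : 0 < D0 := by
    rw [hD0, card_lev]
    have h1 : 0 < (NN g true).choose A.1 := Nat.choose_pos (by have := hN2 true; simp only [hA]; omega)
    have h2 : 0 < (NN g false).choose A.2 := Nat.choose_pos (by have := hN2 false; simp only [hA]; omega)
    exact_mod_cast Nat.mul_pos h1 h2
  -- first moment
  have t2 : ((n : ℝ) ^ (n - 1)) * (D0 * H) ≤ Matrix.trace (Mᵀ * M) := by
    refine le_trans ?_ (trace_ge hET A)
    have e : ((n : ℝ) ^ (n - 1)) * (D0 * H) = ∑ _p : Pth n z, (D0 * H) := by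
      rw [Finset.sum_const, nsmul_eq_mul, Finset.card_univ, card_P z hn1]
      push_cast
      rfl
    rw [e]
    apply Finset.sum_le_sum
    intro p _
    exact card_avoid_ge hemb hg hn1 hN2 p.1
  have hHnn : 0 ≤ H := by
    apply Finset.prod_nonneg
    intro t _
    have h1 : (K (τ t) : ℝ) + 3 * n < NN g (τ t) := by exact_mod_cast hN2 (τ t)
    have h2 : (0 : ℝ) ≤ n := Nat.cast_nonneg _
    apply div_nonneg _ (Nat.cast_nonneg _)
    linarith
  -- second moment
  set Zb : ℝ := 2 * m * ((n : ℝ) ^ 2 * (1 + m / n)) ^ (n - 1) with hZb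
  have hςnn : ∀ t : Fin n, 0 ≤ (K (τ t) : ℝ) / ((NN g (τ t) : ℝ) - K (τ t)) := by
    intro t
    have h2 : (K (τ t) : ℝ) < NN g (τ t) := by
      have : K (τ t) < NN g (τ t) := by have := hN2 (τ t); omega
      exact_mod_cast this
    apply div_nonneg (Nat.cast_nonneg _)
    linarith
  have t4 : Matrix.trace ((Mᵀ * M) * (Mᵀ * M)) ≤ D0 * Q2 * Zb := by
    refine (trace_sq_le A).trans ?_
    have h1 : ∀ a a' b b' : Pth n z,
        (if Compat (E a) (E a') (E b) (E b') then
          ((Finset.univ.filter (fun Z : Finset U => typ g Z = A ∧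
            (E a' \ E a) ⊆ Z ∧ Disjoint Z (E a ∪ E b))).card : ℝ) else 0) ≤
        D0 * Q2 * ∏ t : Fin n, Wm n ((K (τ t) : ℝ) / ((NN g (τ t) : ℝ) - K (τ t)))
            (quad a.1 a'.1 b.1 b'.1 t.castSucc) (quad a.1 a'.1 b.1 b'.1 t.succ) := by
      intro a a' b b'
      by_cases hc : Compat (E a) (E a') (E b) (E b')
      · rw [if_pos hc]
        have := card_quad_le hemb hg hn1 hK hN2 hc
        rw [Finset.prod_mul_distrib, ← mul_assoc] at this
        exact this
      · rw [if_neg hc]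
        apply mul_nonneg (by positivity)
        apply Finset.prod_nonneg
        intro t _
        exact Wm_nonneg (hςnn t) _ _
    calc _ ≤ ∑ a : Pth n z, ∑ a' : Pth n z, ∑ b : Pth n z, ∑ b' : Pth n z,
          D0 * Q2 * ∏ t : Fin n, Wm n ((K (τ t) : ℝ) / ((NN g (τ t) : ℝ) - K (τ t)))
            (quad a.1 a'.1 b.1 b'.1 t.castSucc) (quad a.1 a'.1 b.1 b'.1 t.succ) := by
          apply Finset.sum_le_sum; intro a _
          apply Finset.sum_le_sum; intro a' _
          apply Finset.sum_le_sum; intro b _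
          apply Finset.sum_le_sum; intro b' _
          exact h1 a a' b b'
      _ = D0 * Q2 * ∑ a : Pth n z, ∑ a' : Pth n z, ∑ b : Pth n z, ∑ b' : Pth n z,
          ∏ t : Fin n, Wm n ((K (τ t) : ℝ) / ((NN g (τ t) : ℝ) - K (τ t)))
            (quad a.1 a'.1 b.1 b'.1 t.castSucc) (quad a.1 a'.1 b.1 b'.1 t.succ) := by
          simp only [Finset.mul_sum]
      _ ≤ D0 * Q2 * Zb := by
          apply mul_le_mul_of_nonneg_left _ (by positivity)
          refine (quad_sum_le z (fun t => Wm n ((K (τ t) : ℝ) / ((NN g (τ t) : ℝ) - K (τ t))))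
            (fun t s s' => Wm_nonneg (hςnn t) s s')).trans ?_
          have e : List.ofFn (fun t : Fin n => Wm n ((K (τ t) : ℝ) / ((NN g (τ t) : ℝ) - K (τ t)))) =
              (List.ofFn (fun t : Fin n => (K (τ t) : ℝ) / ((NN g (τ t) : ℝ) - K (τ t)))).map
                (Wm n) := by
            rw [List.map_ofFn]; rfl
          rw [e]
          have hl : (List.ofFn (fun t : Fin n => (K (τ t) : ℝ) /
              ((NN g (τ t) : ℝ) - K (τ t)))).length = n := by simp
          have := prod_map_Wm_le n hn1 z hm _ (by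
            intro h0
            have := congrArg List.length h0
            rw [hl] at this
            simp at this
            omega) hb
          rw [hl] at this
          exact this
  -- combine
  have hr := sq_trace_le_rank_mul M
  have hL : 0 ≤ ((n : ℝ) ^ (n - 1)) * (D0 * H) := by positivity
  have h5 : (((n : ℝ) ^ (n - 1)) * (D0 * H)) ^ 2 ≤ (M.rank : ℝ) * (D0 * Q2 * Zb) := by
    calc (((n : ℝ) ^ (n - 1)) * (D0 * H)) ^ 2 ≤ (Matrix.trace (Mᵀ * M)) ^ 2 := by
          apply pow_le_pow_left₀ hL t2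
      _ ≤ _ := hr
      _ ≤ _ := mul_le_mul_of_nonneg_left t4 (Nat.cast_nonneg _)
  have h6 : (1 / 2 : ℝ) * Q2 ≤ H ^ 2 := ratio_ge hn hN
  -- bound Zb
  have hnpos : (0 : ℝ) < n := by exact_mod_cast hn1
  have h7 : Zb ≤ 2 * m * ((n : ℝ) ^ (n - 1)) ^ 2 * Real.exp m := by
    rw [hZb, mul_pow, ← pow_mul, mul_comm 2 (n - 1), pow_mul]
    have h8 : (1 + m / n) ^ (n - 1) ≤ Real.exp m := by
      have h9 : 1 + m / n ≤ Real.exp (m / n) := by
        have := Real.add_one_le_exp (m / n)
        linarith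
      have h10 : 0 ≤ 1 + m / (n : ℝ) := by positivity
      calc (1 + m / n) ^ (n - 1) ≤ (Real.exp (m / n)) ^ (n - 1) := by
            apply pow_le_pow_left₀ h10 h9
        _ = Real.exp ((n - 1 : ℕ) * (m / n)) := by rw [← Real.exp_nat_mul]
        _ ≤ Real.exp m := by
            apply Real.exp_le_exp.2
            have h11 : ((n - 1 : ℕ) : ℝ) ≤ n := by exact_mod_cast Nat.sub_le _ _
            calc ((n - 1 : ℕ) : ℝ) * (m / n) ≤ n * (m / n) := by gcongr
              _ = m := by field_simp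
    calc 2 * m * (((n : ℝ) ^ (n - 1)) ^ 2 * (1 + m / n) ^ (n - 1))
        ≤ 2 * m * (((n : ℝ) ^ (n - 1)) ^ 2 * Real.exp m) := by gcongr
      _ = _ := by ring
  set Pn : ℝ := (n : ℝ) ^ (n - 1) with hPn
  have hPnpos : 0 < Pn := by positivity
  have h8 : Pn ^ 2 * (D0 ^ 2 * (1 / 2 * Q2)) ≤
      (M.rank : ℝ) * (D0 * Q2 * (2 * m * Pn ^ 2 * Real.exp m)) := by
    calc Pn ^ 2 * (D0 ^ 2 * (1 / 2 * Q2)) ≤ Pn ^ 2 * (D0 ^ 2 * H ^ 2) := by gcongr
      _ = (Pn * (D0 * H)) ^ 2 := by ring
      _ ≤ _ := h5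
      _ ≤ _ := by gcongr
  rw [div_le_iff₀ (by positivity)]
  have h9 : Pn ^ 2 * D0 * Q2 * (D0 * (1 / 2)) ≤
      Pn ^ 2 * D0 * Q2 * ((M.rank : ℝ) * (2 * m * Real.exp m)) := by
    calc Pn ^ 2 * D0 * Q2 * (D0 * (1 / 2)) = Pn ^ 2 * (D0 ^ 2 * (1 / 2 * Q2)) := by ring
      _ ≤ _ := h8
      _ = _ := by ring
  have h10 := le_of_mul_le_mul_left h9 (by positivity)
  linarith

end Main

end Crest.Agent.R327
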