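import Mathlib
import Crest.Prelude.Def_SPSPS
import Crest.Agent.R327.LowerMain

set_option autoImplicit false
set_option linter.unusedSectionVars false

namespace Crest.Agent.R327

open Matrix MvPolynomial

section Mono

variable {U K : Type*} [Fintype U] [DecidableEq U] [Field K]

theorem prod_X_eq (S : Finset U) : (∏ u ∈ S, (X u : MvPolynomial U K)) = monomial (ind S) 1 := by
  induction S using Finset.induction_on with
  | empty =>
    have : ind (∅ : Finset U) = 0 := by
      ext u; simp [ind_apply]
    rw [this]; simp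
  | insert a S ha ih =>
    rw [Finset.prod_insert ha, ih]
    have : ind (insert a S) = Finsupp.single a 1 + ind S := by
      ext u
      simp only [ind_apply, Finset.mem_insert, Finsupp.add_apply, Finsupp.single_apply]
      by_cases hu : u = a
      · subst hu; simp [ha]
      · have : ¬ a = u := fun h => hu h.symm
        simp [hu, this]
    rw [this, X, monomial_mul, one_mul]

theorem mm_prod_X (S Z Z' : Finset U) :
    mm (∏ u ∈ S, (X u : MvPolynomial U K)) Z' Z = if Disjoint Z S ∧ Z' = Z ∪ S then 1 else 0 := by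
  rw [prod_X_eq]
  unfold mm sqc
  rw [coeff_monomial]
  by_cases h : Disjoint Z S ∧ Z' = Z ∪ S
  · rw [if_pos h]
    obtain ⟨h1, h2⟩ := h
    rw [if_pos (by rw [h2]; exact Finset.subset_union_left), if_pos]
    congr 1
    rw [h2, Finset.union_sdiff_left, Finset.sdiff_eq_self_of_disjoint h1.symm]
  · rw [if_neg h]
    by_cases h1 : Z ⊆ Z'
    · rw [if_pos h1, if_neg]
      intro h2
      apply h
      have h3 := ind_injective h2
      constructor
      · rw [h3]; exact Finset.disjoint_sdiff
      · rw [h3, Finset.union_sdiff_of_subset h1]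
    · rw [if_neg h1]

end Mono

section Imm

variable {n : ℕ} {U K : Type*} [Fintype U] [DecidableEq U] [Field K] {g : U → Bool}
  (emb : Fin (n + 1) × Fin (n + 1) × Fin (n + 1) → U)

theorem rename_imm (hemb : Function.Injective emb) :
    rename emb (Crest.ArithCircuit.imm K (n + 1)) =
      ∑ p : Pth (n + 1) (0 : Fin (n + 1)), ∏ u ∈ Ep emb p.1, (X u : MvPolynomial U K) := by
  classical
  have h0 : Crest.ArithCircuit.imm K (n + 1) =
      (List.ofFn (Crest.ArithCircuit.varMatrix K (n + 1))).prod 0 0 := rfl
  rw [h0, ofFn_prod_apply, map_sum]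
  rw [← Finset.sum_subtype (Finset.univ.filter
    (fun p : Fin (n + 1 + 1) → Fin (n + 1) => p 0 = 0 ∧ p (Fin.last (n + 1)) = 0)) (by simp)
    (fun p => ∏ u ∈ Ep emb p, (X u : MvPolynomial U K))]
  rw [Finset.sum_filter]
  apply Finset.sum_congr rfl
  intro p _
  by_cases h : p 0 = 0 ∧ p (Fin.last (n + 1)) = 0
  · rw [if_pos h, if_pos h, map_prod]
    unfold Ep
    rw [Finset.prod_image (fun x _ y _ hxy => edge_injective p (hemb hxy))]
    apply Finset.prod_congr rfl
    intro t _
    unfold Crest.ArithCircuit.varMatrix edge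
    simp [rename_X]
  · rw [if_neg h, if_neg h, map_zero]

theorem blk_imm (hemb : Function.Injective emb) (A B : ℕ × ℕ) :
    blk g (rename emb (Crest.ArithCircuit.imm K (n + 1))) A B =
      (cnt g (fun p : Pth (n + 1) (0 : Fin (n + 1)) => Ep emb p.1) A B).map
        (fun x : ℕ => (x : K)) := by
  rw [rename_imm emb hemb, blk_sum]
  ext Z' Z
  rw [Matrix.sum_apply, Matrix.map_apply]
  unfold cnt
  push_cast
  apply Finset.sum_congr rfl
  intro p _
  rw [blk_apply, mm_prod_X]

theorem rank_imm_ge [CharZero K] (hemb : Function.Injective emb) (A B : ℕ × ℕ) :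
    (cntR g (fun p : Pth (n + 1) (0 : Fin (n + 1)) => Ep emb p.1) A B).rank ≤
      (blk g (rename emb (Crest.ArithCircuit.imm K (n + 1))) A B).rank := by
  rw [blk_imm emb hemb]
  exact rank_natCast_le _ K

end Imm

end Crest.Agent.R327
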