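import Mathlib
import Crest.Agent.R327.UpperRank

set_option autoImplicit false
set_option linter.unusedSectionVars false

namespace Crest.Agent.R327

section SdEst

theorem sum_half_inj (s : Finset ℕ) (φ : ℕ → ℕ) (hφ : Set.InjOn φ s) :
    ∑ k ∈ s, (1 / 2 : ℝ) ^ φ k ≤ 2 := by
  classical
  have h1 : ∑ k ∈ s, (1 / 2 : ℝ) ^ φ k = ∑ i ∈ s.image φ, (1 / 2 : ℝ) ^ i := by
    rw [Finset.sum_image]
    intro a ha b hb h
    exact hφ ha hb h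
  rw [h1]
  have h2 : s.image φ ⊆ Finset.range ((s.image φ).sup id + 1) := by
    intro i hi
    rw [Finset.mem_range]
    exact Nat.lt_succ_of_le (Finset.le_sup (f := id) hi)
  refine (Finset.sum_le_sum_of_subset_of_nonneg h2 (fun i _ _ => by positivity)).trans ?_
  exact sum_geometric_two_le _

theorem sval_zero (x y : ℝ) : sval x y 0 0 = 1 := by
  unfold sval; simp

theorem Sd_zero (x y : ℝ) : Sd x y 0 = 1 := by
  unfold Sd
  simp [sval_zero]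

/-- `x = 1/σ`, `y = ρ = r²`, `σ = (γ² r)²`. -/
theorem sval_le_first {γ r : ℝ} (hγ : 1 ≤ γ) (hr : 2 ≤ r) (e i : ℕ) :
    sval ((γ ^ 2 * r) ^ 2)⁻¹ (r ^ 2) (e + i) e ≤ (γ⁻¹) ^ (2 * e + i) * (1 / 2) ^ i := by
  have hγ0 : 0 < γ := by linarith
  have hr0 : 0 < r := by linarith
  refine (min_le_left _ _).trans ?_
  have e1 : ((γ ^ 2 * r) ^ 2)⁻¹ ^ (e + i) * (r ^ 2) ^ e =
      ((γ⁻¹) ^ (2 * e + i) * (γ⁻¹ * r⁻¹) ^ i) ^ 2 := by
    have hr' : r ^ (e * 2) * r⁻¹ ^ (e * 2) = 1 := by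
      rw [← mul_pow, mul_inv_cancel₀ hr0.ne', one_pow]
    linear_combination (γ⁻¹ ^ (e * 4) * γ⁻¹ ^ (i * 4) * r⁻¹ ^ (i * 2)) * hr'
  rw [e1, Real.sqrt_sq (by positivity)]
  apply mul_le_mul_of_nonneg_left _ (by positivity)
  apply pow_le_pow_left₀ (by positivity)
  have h1 : γ⁻¹ ≤ 1 := inv_le_one_of_one_le₀ hγ
  have h2 : r⁻¹ ≤ 1 / 2 := by
    rw [one_div]
    exact inv_anti₀ (by norm_num) hr
  calc γ⁻¹ * r⁻¹ ≤ 1 * (1 / 2) := mul_le_mul h1 h2 (by positivity) (by norm_num)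
    _ = 1 / 2 := by ring

theorem sval_le_second {γ r : ℝ} {Λ : ℕ} (hγ : 1 ≤ γ) (hr : 2 ≤ r) (hΛ : γ ^ (2 * Λ) ≤ r)
    (k j : ℕ) (hd : 2 * k + (j + 1) ≤ Λ) :
    sval ((γ ^ 2 * r) ^ 2)⁻¹ (r ^ 2) k (k + (j + 1)) ≤
      (γ⁻¹) ^ (2 * k + (j + 1)) * (1 / 2) ^ j := by
  have hγ0 : 0 < γ := by linarith
  have hr0 : 0 < r := by linarith
  refine (min_le_right _ _).trans ?_
  have e1 : ((γ ^ 2 * r) ^ 2)⁻¹ ^ k * (r ^ 2) ^ (k + (j + 1)) =
      ((γ⁻¹) ^ (2 * k) * r ^ (j + 1)) ^ 2 := by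
    have hr' : r ^ (k * 2) * r⁻¹ ^ (k * 2) = 1 := by
      rw [← mul_pow, mul_inv_cancel₀ hr0.ne', one_pow]
    linear_combination (r ^ 2 * r ^ (j * 2) * γ⁻¹ ^ (k * 4)) * hr'
  rw [e1, Real.sqrt_sq (by positivity), mul_inv, ← inv_pow, ← inv_pow, inv_inv]
  -- γ^(2k) r^{-(j+1)} ≤ γ^{-(2k+j+1)} (1/2)^j
  have h1 : γ ^ (2 * k) * γ ^ (2 * k + (j + 1)) ≤ r := by
    rw [← pow_add]
    refine le_trans (pow_le_pow_right₀ hγ ?_) hΛ
    omega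
  have h2 : γ ^ (2 * k) = (γ ^ (2 * k) * γ ^ (2 * k + (j + 1))) * (γ⁻¹) ^ (2 * k + (j + 1)) := by
    rw [mul_assoc, ← mul_pow, mul_inv_cancel₀ hγ0.ne', one_pow, mul_one]
  have h3 : r⁻¹ ≤ 1 / 2 := by
    rw [one_div]
    exact inv_anti₀ (by norm_num) hr
  have h4 : r⁻¹ ^ (j + 1) * r ≤ (1 / 2) ^ j := by
    rw [pow_succ, mul_assoc, inv_mul_cancel₀ hr0.ne', mul_one]
    exact pow_le_pow_left₀ (by positivity) h3 j
  calc γ ^ (2 * k) * r⁻¹ ^ (j + 1)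
      = (γ ^ (2 * k) * γ ^ (2 * k + (j + 1))) * (γ⁻¹) ^ (2 * k + (j + 1)) * r⁻¹ ^ (j + 1) := by
        rw [← h2]
    _ ≤ r * (γ⁻¹) ^ (2 * k + (j + 1)) * r⁻¹ ^ (j + 1) := by
        apply mul_le_mul_of_nonneg_right _ (by positivity)
        exact mul_le_mul_of_nonneg_right h1 (by positivity)
    _ = (γ⁻¹) ^ (2 * k + (j + 1)) * (r⁻¹ ^ (j + 1) * r) := by ring
    _ ≤ (γ⁻¹) ^ (2 * k + (j + 1)) * (1 / 2) ^ j :=
        mul_le_mul_of_nonneg_left h4 (by positivity)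

theorem Sd_le {γ r : ℝ} {Λ : ℕ} (hγ : 1 ≤ γ) (hr : 2 ≤ r) (hΛ : γ ^ (2 * Λ) ≤ r)
    (d : ℕ) (hd : d ≤ Λ) :
    Sd ((γ ^ 2 * r) ^ 2)⁻¹ (r ^ 2) d ≤ 6 * (γ⁻¹) ^ d := by
  have hγ0 : 0 < γ := by linarith
  unfold Sd
  rw [← Finset.sum_filter_add_sum_filter_not (Finset.range (d + 1)) (fun k => d ≤ 2 * k)]
  have hA : ∑ k ∈ (Finset.range (d + 1)).filter (fun k => d ≤ 2 * k),
      sval ((γ ^ 2 * r) ^ 2)⁻¹ (r ^ 2) k (d - k) ≤
      ∑ k ∈ (Finset.range (d + 1)).filter (fun k => d ≤ 2 * k),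
        (γ⁻¹) ^ d * (1 / 2) ^ (2 * k - d) := by
    apply Finset.sum_le_sum
    intro k hk
    simp only [Finset.mem_filter, Finset.mem_range] at hk
    have h := sval_le_first hγ hr (d - k) (2 * k - d)
    have e1 : d - k + (2 * k - d) = k := by omega
    have e2 : 2 * (d - k) + (2 * k - d) = d := by omega
    rw [e1, e2] at h
    exact h
  have hB : ∑ k ∈ (Finset.range (d + 1)).filter (fun k => ¬ d ≤ 2 * k),
      sval ((γ ^ 2 * r) ^ 2)⁻¹ (r ^ 2) k (d - k) ≤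
      ∑ k ∈ (Finset.range (d + 1)).filter (fun k => ¬ d ≤ 2 * k),
        (γ⁻¹) ^ d * (1 / 2) ^ (d - 2 * k - 1) := by
    apply Finset.sum_le_sum
    intro k hk
    simp only [Finset.mem_filter, Finset.mem_range, not_le] at hk
    have h := sval_le_second hγ hr hΛ k (d - 2 * k - 1) (by omega)
    have e1 : k + (d - 2 * k - 1 + 1) = d - k := by omega
    have e2 : 2 * k + (d - 2 * k - 1 + 1) = d := by omega
    rw [e1, e2] at h
    exact h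
  have hA2 : ∑ k ∈ (Finset.range (d + 1)).filter (fun k => d ≤ 2 * k),
      (1 / 2 : ℝ) ^ (2 * k - d) ≤ 2 := by
    apply sum_half_inj
    intro a ha b hb h
    simp only [Finset.coe_filter, Finset.mem_range, Set.mem_ofPred_eq] at ha hb
    simp only at h
    omega
  have hB2 : ∑ k ∈ (Finset.range (d + 1)).filter (fun k => ¬ d ≤ 2 * k),
      (1 / 2 : ℝ) ^ (d - 2 * k - 1) ≤ 2 := by
    apply sum_half_inj
    intro a ha b hb h
    simp only [Finset.coe_filter, Finset.mem_range, Set.mem_ofPred_eq] at ha hb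
    simp only at h
    omega
  rw [← Finset.mul_sum] at hA hB
  have hp : 0 ≤ (γ⁻¹) ^ d := by positivity
  nlinarith [mul_le_mul_of_nonneg_left hA2 hp, mul_le_mul_of_nonneg_left hB2 hp]

theorem Sd_one_le {γ r : ℝ} (hγ : 1 ≤ γ) (hr : 2 ≤ r) :
    Sd ((γ ^ 2 * r) ^ 2)⁻¹ (r ^ 2) 1 ≤ 2 / r := by
  have hγ0 : 0 < γ := by linarith
  have hr0 : 0 < r := by linarith
  unfold Sd
  rw [Finset.sum_range_succ, Finset.sum_range_one]
  have h1 : sval ((γ ^ 2 * r) ^ 2)⁻¹ (r ^ 2) 0 (1 - 0) ≤ 1 / r := by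
    refine (min_le_right _ _).trans ?_
    simp only [pow_zero, one_mul, Nat.sub_zero, pow_one]
    rw [Real.sqrt_sq hr0.le, one_div]
  have h2 : sval ((γ ^ 2 * r) ^ 2)⁻¹ (r ^ 2) 1 (1 - 1) ≤ 1 / r := by
    refine (min_le_left _ _).trans ?_
    simp only [pow_one, Nat.sub_self, pow_zero, mul_one]
    rw [← inv_pow, Real.sqrt_sq (by positivity), one_div]
    apply inv_anti₀ hr0
    nlinarith [one_le_pow₀ hγ (n := 2)]
  calc _ ≤ 1 / r + 1 / r := add_le_add h1 h2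
    _ = 2 / r := by ring

end SdEst

end Crest.Agent.R327
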