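import Mathlib
import Crest.Agent.R327.Lower

set_option autoImplicit false
set_option linter.unusedSectionVars false

namespace Crest.Agent.R327

/-- Greedy balanced word: all suffix products of the odds stay in `[1/m, m]`. -/
theorem exists_word {m : ℝ} (hm : 1 ≤ m) (q : Bool → ℝ) (h1 : q true = m)
    (h2 : 1 / m ≤ q false) (h3 : q false ≤ 1) (n : ℕ) :
    ∃ τ : Fin n → Bool, Bal m (List.ofFn (fun t => q (τ t))) ∧
      1 / m ≤ (List.ofFn (fun t => q (τ t))).prod ∧ (List.ofFn (fun t => q (τ t))).prod ≤ m := by
  have hm0 : 0 < m := by linarith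
  have hinv : 1 / m ≤ 1 := by rw [div_le_one hm0]; exact hm
  have hinv0 : 0 < 1 / m := by positivity
  induction n with
  | zero =>
    refine ⟨fun _ => true, ?_, ?_, ?_⟩
    · simp [Bal]
    · simpa using hinv
    · simpa using hm
  | succ n ih =>
    obtain ⟨τ, hB, hl, hu⟩ := ih
    set p := (List.ofFn (fun t => q (τ t))).prod with hp
    have hp0 : 0 < p := lt_of_lt_of_le hinv0 hl
    by_cases hc : p ≤ 1
    · refine ⟨Fin.cons true τ, ?_⟩
      have e : List.ofFn (fun t => q ((Fin.cons true τ : Fin (n + 1) → Bool) t)) =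
          m :: List.ofFn (fun t => q (τ t)) := by
        rw [List.ofFn_succ]
        simp [h1]
      rw [e]
      have hb1 : 1 / m ≤ m * p := by
        have h5 : 1 ≤ m * p := by
          calc (1 : ℝ) = m * (1 / m) := by field_simp
            _ ≤ m * p := mul_le_mul_of_nonneg_left hl hm0.le
        linarith
      have hb2 : m * p ≤ m := by nlinarith
      refine ⟨⟨hm0, ?_, ?_, hB⟩, ?_, ?_⟩
      · rw [List.prod_cons, ← hp]; exact hb1
      · rw [List.prod_cons, ← hp]; exact hb2
      · rw [List.prod_cons, ← hp]; exact hb1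
      · rw [List.prod_cons, ← hp]; exact hb2
    · push Not at hc
      refine ⟨Fin.cons false τ, ?_⟩
      have e : List.ofFn (fun t => q ((Fin.cons false τ : Fin (n + 1) → Bool) t)) =
          q false :: List.ofFn (fun t => q (τ t)) := by
        rw [List.ofFn_succ]
        simp
      rw [e]
      have hq0 : 0 < q false := lt_of_lt_of_le hinv0 h2
      have hb1 : 1 / m ≤ q false * p := by nlinarith
      have hb2 : q false * p ≤ m := by nlinarith
      refine ⟨⟨hq0, ?_, ?_, hB⟩, ?_, ?_⟩
      · rw [List.prod_cons, ← hp]; exact hb1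
      · rw [List.prod_cons, ← hp]; exact hb2
      · rw [List.prod_cons, ← hp]; exact hb1
      · rw [List.prod_cons, ← hp]; exact hb2

theorem lc_add (n : ℕ) (τ : Fin n → Bool) : lc τ true + lc τ false = n := by
  unfold lc
  have h := Finset.card_filter_add_card_filter_not (s := (Finset.univ : Finset (Fin n)))
    (fun t => τ t = true)
  simp only [Finset.card_univ, Fintype.card_fin] at h
  convert h using 2
  congr 1
  ext t
  simp

theorem prod_word (n : ℕ) (τ : Fin n → Bool) (q : Bool → ℝ) :
    (List.ofFn (fun t => q (τ t))).prod = q true ^ lc τ true * q false ^ lc τ false := by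
  rw [List.prod_ofFn]
  unfold lc
  rw [← Finset.prod_const, ← Finset.prod_const,
    ← Finset.prod_filter_mul_prod_filter_not Finset.univ (fun t => τ t = true)]
  congr 1
  · apply Finset.prod_congr rfl
    intro t ht
    rw [(Finset.mem_filter.1 ht).2]
  · apply Finset.prod_congr
    · ext t; simp
    · intro t ht
      have := (Finset.mem_filter.1 ht).2
      rw [this]

end Crest.Agent.R327
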