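import Mathlib
import Crest.Prelude.Def_SPSPS
import Crest.Agent.R327.CircuitUB
import Crest.Agent.R327.ImmBlk
import Crest.Agent.R327.Binom
import Crest.Agent.R327.Levels
import Crest.Agent.R327.Sds
import Crest.Agent.R327.Word

set_option autoImplicit false
set_option linter.unusedSectionVars false

namespace Crest.Agent.R327

open MvPolynomial Crest.ArithCircuit

section NNs

variable {α β : Type*} [Fintype α] [Fintype β] [DecidableEq α] [DecidableEq β]

theorem NN_isLeft_true : NN (Sum.isLeft : α ⊕ β → Bool) true = Fintype.card α := by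
  unfold NN
  have : (Finset.univ.filter (fun u : α ⊕ β => u.isLeft = true)) =
      (Finset.univ : Finset α).map Function.Embedding.inl := by
    ext u
    cases u <;> simp
  rw [this, Finset.card_map, Finset.card_univ]

theorem NN_isLeft_false : NN (Sum.isLeft : α ⊕ β → Bool) false = Fintype.card β := by
  unfold NN
  have : (Finset.univ.filter (fun u : α ⊕ β => u.isLeft = false)) =
      (Finset.univ : Finset β).map Function.Embedding.inr := by
    ext u
    cases u <;> simp
  rw [this, Finset.card_map, Finset.card_univ]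

end NNs

section Growth

variable {U : Type*} [Fintype U] [DecidableEq U] {g : U → Bool}

theorem card_lev_le (A0 A : ℕ × ℕ) (hA : A0 ≤ A) (h1 : 1 ≤ A0.1) (h2 : 1 ≤ A0.2)
    (h3 : A0.1 < NN g true) (h4 : A0.2 < NN g false) :
    (Fintype.card (Lev g A) : ℝ) ≤
      Wt ((Fintype.card (Lev g A0) : ℝ) /
        ((((NN g true : ℝ) - A0.1) / A0.1) ^ A0.1 * (((NN g false : ℝ) - A0.2) / A0.2) ^ A0.2))
        (((NN g true : ℝ) - A0.1) / A0.1) (((NN g false : ℝ) - A0.2) / A0.2) A := by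
  obtain ⟨a, ha⟩ := Nat.exists_eq_add_of_le hA.1
  obtain ⟨b, hb⟩ := Nat.exists_eq_add_of_le hA.2
  have e1 := choose_add_le (NN g true) A0.1 a h1 h3.le
  have e2 := choose_add_le (NN g false) A0.2 b h2 h4.le
  have hx : 0 < ((NN g true : ℝ) - A0.1) / A0.1 := by
    apply div_pos
    · rw [sub_pos]; exact_mod_cast h3
    · exact_mod_cast h1
  have hy : 0 < ((NN g false : ℝ) - A0.2) / A0.2 := by
    apply div_pos
    · rw [sub_pos]; exact_mod_cast h4
    · exact_mod_cast h2
  set x := ((NN g true : ℝ) - A0.1) / A0.1 with hxdef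
  set y := ((NN g false : ℝ) - A0.2) / A0.2 with hydef
  unfold Wt
  rw [card_lev g A, card_lev g A0, ha, hb, pow_add, pow_add]
  push_cast
  calc ((NN g true).choose (A0.1 + a) : ℝ) * ((NN g false).choose (A0.2 + b) : ℝ)
      ≤ ((NN g true).choose A0.1 * x ^ a) * ((NN g false).choose A0.2 * y ^ b) := by
        apply mul_le_mul e1 e2 (Nat.cast_nonneg _) (by positivity)
    _ = _ := by
        field_simp

theorem Wt_self (A0 : ℕ × ℕ) {x y D : ℝ} (hx : 0 < x) (hy : 0 < y) :
    Wt (D / (x ^ A0.1 * y ^ A0.2)) x y A0 = D := by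
  unfold Wt
  field_simp

end Growth

section Params

theorem rank_imm_ge' {n : ℕ} {U K : Type*} [Fintype U] [DecidableEq U] [Field K] {g : U → Bool}
    [CharZero K] (hn : 0 < n) (emb : Fin n × Fin n × Fin n → U)
    (hemb : Function.Injective emb) (A B : ℕ × ℕ) :
    (cntR g (fun p : Pth n (⟨0, hn⟩ : Fin n) => Ep emb p.1) A B).rank ≤
      (blk g (rename emb (imm K n)) A B).rank := by
  obtain ⟨n', rfl⟩ : ∃ n', n = n' + 1 := ⟨n - 1, by omega⟩
  exact rank_imm_ge emb hemb A B

/-- Numerical consequence. -/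
theorem main_ineq {n m ell Λ : ℕ} (hn : 16 ≤ n) (hm : 1 ≤ m)
    {γ r : ℝ} (hγ : 1 ≤ γ) (hr : 2 ≤ r) (hr2 : r ^ 2 = (m : ℝ) ^ 2 / ((m : ℝ) + ell))
    (hγr : (γ ^ 2 * r) ^ 2 = m) (hΛ : γ ^ (2 * Λ) ≤ r)
    {K : Type*} [Field K] [CharZero K]
    {L B P S R : Type*} [Fintype L] [Fintype B] [Fintype P] [Fintype S] [Fintype R]
    (C : SPSPS K (Fin n × Fin n × Fin n) L B P S R) (hC : C.IsHomogeneous)
    (hout : C.output = imm K n) :
    1 / (4 * (m : ℝ) * Real.exp m) ≤
      (C.size : ℝ) * (√(m : ℝ) * (6 ^ (2 * n / (Λ + 1) + 1) * (γ⁻¹) ^ n +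
        (C.size : ℝ) * (2 / r) ^ (Λ + 1))) := by
  classical
  have hmR : (1 : ℝ) ≤ m := by exact_mod_cast hm
  have hm0 : (0 : ℝ) < m := by linarith
  have hn0 : 0 < n := by omega
  have hnR : (0 : ℝ) < n := by exact_mod_cast hn0
  have hellR : (0 : ℝ) ≤ ell := Nat.cast_nonneg _
  have hγ0 : 0 < γ := by linarith
  have hr0 : 0 < r := by linarith
  let V := Fin n × Fin n × Fin n
  have hcardV : Fintype.card V = n ^ 3 := by
    simp [V, pow_succ, mul_assoc]
  let U := (V × Fin (m + 1)) ⊕ (V × Fin (m ^ 2 + m + ell))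
  let g : U → Bool := Sum.isLeft
  let q : Bool → ℝ := fun c => if c then (m : ℝ) else ((m : ℝ) + ell) / (m : ℝ) ^ 2
  have hq1 : q true = m := by simp [q]
  have hq2' : q false = ((m : ℝ) + ell) / (m : ℝ) ^ 2 := by simp [q]
  have hqr : q false = 1 / r ^ 2 := by
    rw [hq2', hr2]; field_simp
  have hq2 : 1 / (m : ℝ) ≤ q false := by
    rw [hq2', div_le_div_iff₀ hm0 (by positivity)]
    nlinarith
  have hq3 : q false ≤ 1 := by
    rw [hqr, div_le_one (by positivity)]
    nlinarith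
  obtain ⟨τ, hbal, hprod1, hprod2⟩ := exists_word hmR q hq1 hq2 hq3 n
  let emb : V → U := fun v => if τ v.1 then Sum.inl (v, 0) else
    Sum.inr (v, ⟨0, by positivity⟩)
  have hemb : Function.Injective emb := by
    intro v w h
    simp only [emb] at h
    by_cases hv : τ v.1 = true
    · by_cases hw : τ w.1 = true
      · rw [if_pos hv, if_pos hw] at h
        exact congrArg Prod.fst (Sum.inl_injective h)
      · rw [if_pos hv, if_neg hw] at h
        simp at h
    · by_cases hw : τ w.1 = true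
      · rw [if_neg hv, if_pos hw] at h
        simp at h
      · rw [if_neg hv, if_neg hw] at h
        exact congrArg Prod.fst (Sum.inr_injective h)
  have hg : ∀ v, g (emb v) = τ v.1 := by
    intro v
    simp only [emb, g]
    by_cases hv : τ v.1 = true
    · rw [if_pos hv, hv]; rfl
    · rw [if_neg hv]
      simp only [Bool.not_eq_true] at hv
      rw [hv]; rfl
  have hNt : NN g true = n ^ 3 * (m + 1) := by
    have := NN_isLeft_true (α := V × Fin (m + 1)) (β := V × Fin (m ^ 2 + m + ell))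
    rw [Fintype.card_prod, hcardV, Fintype.card_fin] at this
    exact this
  have hNf : NN g false = n ^ 3 * (m ^ 2 + m + ell) := by
    have := NN_isLeft_false (α := V × Fin (m + 1)) (β := V × Fin (m ^ 2 + m + ell))
    rw [Fintype.card_prod, hcardV, Fintype.card_fin] at this
    exact this
  let Kf : Bool → ℕ := fun c => if c then m * n ^ 3 else (m + ell) * n ^ 3
  have hKt : Kf true = m * n ^ 3 := by simp [Kf]
  have hKf : Kf false = (m + ell) * n ^ 3 := by simp [Kf]
  have hn3 : n ≤ n ^ 3 := by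
    calc n = n ^ 1 := (pow_one n).symm
      _ ≤ n ^ 3 := Nat.pow_le_pow_right hn0 (by norm_num)
  have hn30 : 0 < n ^ 3 := by positivity
  have hK : ∀ c, n ≤ Kf c := by
    intro c
    cases c
    · rw [hKf]
      calc n ≤ 1 * n ^ 3 := by simpa using hn3
        _ ≤ (m + ell) * n ^ 3 := Nat.mul_le_mul_right _ (by omega)
    · rw [hKt]
      calc n ≤ 1 * n ^ 3 := by simpa using hn3
        _ ≤ m * n ^ 3 := Nat.mul_le_mul_right _ hm
  have hN : ∀ c, Kf c + n ^ 3 ≤ NN g c := by
    intro c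
    cases c
    · rw [hKf, hNf]
      have : 1 ≤ m ^ 2 := Nat.one_le_pow _ _ hm
      nlinarith
    · rw [hKt, hNt]
      nlinarith
  have hodds : ∀ c, (Kf c : ℝ) / ((NN g c : ℝ) - Kf c) = q c := by
    intro c
    cases c
    · rw [hKf, hNf, hq2']
      push_cast
      have : (n : ℝ) ^ 3 * ((m : ℝ) ^ 2 + m + ell) - (m + ell) * (n : ℝ) ^ 3 =
        (n : ℝ) ^ 3 * (m : ℝ) ^ 2 := by ring
      rw [this]
      field_simp
    · rw [hKt, hNt, hq1]
      push_cast
      have : (n : ℝ) ^ 3 * ((m : ℝ) + 1) - m * (n : ℝ) ^ 3 = (n : ℝ) ^ 3 := by ring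
      rw [this]
      field_simp
  have hb : Bal (m : ℝ) (List.ofFn (fun t : Fin n =>
      (Kf (τ t) : ℝ) / ((NN g (τ t) : ℝ) - Kf (τ t)))) := by
    simp only [hodds]
    exact hbal
  have hlow := rank_lower hemb hg (⟨0, hn0⟩ : Fin n) hn hK hN hmR hb
  have himm := rank_imm_ge' (K := K) (g := g) hn0 emb hemb (Kf true, Kf false)
    ((Kf true, Kf false) + (lc τ true, lc τ false))
  set A0 : ℕ × ℕ := (Kf true, Kf false) with hA0
  set T : ℕ × ℕ := (lc τ true, lc τ false) with hT
  have hlow2 : (Fintype.card (Lev g A0) : ℝ) / (4 * m * Real.exp m) ≤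
      ((blk g (rename emb (imm K n)) A0 (A0 + T)).rank : ℝ) :=
    hlow.trans (by exact_mod_cast himm)
  have hA1 : 1 ≤ A0.1 := by
    have := hK true
    rw [hA0]; exact le_trans hn0 this
  have hA2 : 1 ≤ A0.2 := by
    have := hK false
    rw [hA0]; exact le_trans hn0 this
  have hA3 : A0.1 < NN g true := by
    have := hN true
    rw [hA0]; show Kf true < _; omega
  have hA4 : A0.2 < NN g false := by
    have := hN false
    rw [hA0]; show Kf false < _; omega
  have hDpos : (0 : ℝ) < Fintype.card (Lev g A0) := by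
    rw [card_lev]
    have := Nat.mul_pos (Nat.choose_pos hA3.le) (Nat.choose_pos hA4.le)
    exact_mod_cast this
  obtain ⟨D, hD⟩ : ∃ D : ℝ, D = (Fintype.card (Lev g A0) : ℝ) := ⟨_, rfl⟩
  rw [← hD] at hDpos hlow2
  have hx : ((NN g true : ℝ) - A0.1) / A0.1 = ((γ ^ 2 * r) ^ 2)⁻¹ := by
    rw [hγr, ← hq1, ← hodds true, inv_div]
  have hy : ((NN g false : ℝ) - A0.2) / A0.2 = r ^ 2 := by
    have : r ^ 2 = (q false)⁻¹ := by rw [hqr]; simp
    rw [this, ← hodds false, inv_div]
  set x : ℝ := ((γ ^ 2 * r) ^ 2)⁻¹ with hxdef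
  set y : ℝ := r ^ 2 with hydef
  have hx0 : 0 < x := by positivity
  have hy0 : 0 < y := by positivity
  have hcard : ∀ A : ℕ × ℕ, A0 ≤ A → (Fintype.card (Lev g A) : ℝ) ≤
      Wt (D / (x ^ A0.1 * y ^ A0.2)) x y A := by
    intro A hA
    have := card_lev_le (g := g) A0 A hA hA1 hA2 hA3 hA4
    rw [hx, hy, ← hD] at this
    exact this
  have hw : 0 ≤ D / (x ^ A0.1 * y ^ A0.2) :=
    div_nonneg hDpos.le (mul_nonneg (pow_nonneg hx0.le _) (pow_nonneg hy0.le _))
  have hs1 : 2 / r ≤ 1 := by rw [div_le_one hr0]; exact hr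
  have hup := rank_output hx0 hy0 hw A0 hcard (γi := γ⁻¹) (s1 := 2 / r) (Λ := Λ)
    (by positivity) (fun d hd => Sd_le hγ hr hΛ d hd) hs1 (Sd_zero _ _).le (Sd_one_le hγ hr)
    emb C hC (A0 + T) (by exact le_self_add)
  rw [hout] at hup
  -- the degree is n
  have hdeg : C.degOut = n := by
    by_contra hne
    have hh := (output_hom C hC).rename_isHomogeneous (f := emb)
    rw [hout] at hh
    have hz := blk_eq_zero_of_degree (g := g) hh A0 T (by
      rw [hT]; show C.degOut ≠ lc τ true + lc τ false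
      rw [lc_add]; exact hne)
    rw [hz, Matrix.rank_zero] at hlow2
    have : 0 < D / (4 * m * Real.exp m) := by positivity
    simp only [Nat.cast_zero] at hlow2
    linarith
  rw [hdeg] at hup
  have hWsq : √(Wt (D / (x ^ A0.1 * y ^ A0.2)) x y A0 *
      Wt (D / (x ^ A0.1 * y ^ A0.2)) x y (A0 + T)) ≤ D * √(m : ℝ) := by
    rw [Wt_add, Wt_self A0 hx0 hy0]
    have hθ : x ^ T.1 * y ^ T.2 ≤ m := by
      have e1 : x = (q true)⁻¹ := by rw [hxdef, hγr, hq1]
      have e2 : y = (q false)⁻¹ := by rw [hqr]; simp [hydef]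
      have e3 : x ^ T.1 * y ^ T.2 = ((List.ofFn (fun t => q (τ t))).prod)⁻¹ := by
        rw [prod_word, e1, e2, mul_inv, inv_pow, inv_pow]
      rw [e3]
      have := inv_anti₀ (by positivity) hprod1
      simpa using this
    have e4 : D * (D * (x ^ T.1 * y ^ T.2)) = D ^ 2 * (x ^ T.1 * y ^ T.2) := by ring
    rw [e4, Real.sqrt_mul (by positivity), Real.sqrt_sq hDpos.le]
    exact mul_le_mul_of_nonneg_left (Real.sqrt_le_sqrt hθ) hDpos.le
  have hRs : (Fintype.card R : ℝ) ≤ C.size := by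
    unfold SPSPS.size
    push_cast
    have a1 : (0 : ℝ) ≤ Fintype.card L := Nat.cast_nonneg _
    have a2 : (0 : ℝ) ≤ Fintype.card B := Nat.cast_nonneg _
    have a3 : (0 : ℝ) ≤ Fintype.card P := Nat.cast_nonneg _
    have a4 : (0 : ℝ) ≤ Fintype.card S := Nat.cast_nonneg _
    linarith
  have hPs : (Fintype.card P : ℝ) ≤ C.size := by
    unfold SPSPS.size
    push_cast
    have a1 : (0 : ℝ) ≤ Fintype.card L := Nat.cast_nonneg _
    have a2 : (0 : ℝ) ≤ Fintype.card B := Nat.cast_nonneg _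
    have a3 : (0 : ℝ) ≤ Fintype.card R := Nat.cast_nonneg _
    have a4 : (0 : ℝ) ≤ Fintype.card S := Nat.cast_nonneg _
    linarith
  have hs0 : (0 : ℝ) ≤ C.size := Nat.cast_nonneg _
  have hfin : D / (4 * m * Real.exp m) ≤ (C.size : ℝ) * (D * √(m : ℝ) *
      (6 ^ (2 * n / (Λ + 1) + 1) * (γ⁻¹) ^ n + (C.size : ℝ) * (2 / r) ^ (Λ + 1))) := by
    refine hlow2.trans (hup.trans ?_)
    apply mul_le_mul hRs _ (by positivity) hs0
    apply mul_le_mul hWsq _ (by positivity) (by positivity)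
    have : (Fintype.card P : ℝ) * (2 / r) ^ (Λ + 1) ≤ (C.size : ℝ) * (2 / r) ^ (Λ + 1) :=
      mul_le_mul_of_nonneg_right hPs (by positivity)
    linarith
  have hfin2 : D * (1 / (4 * m * Real.exp m)) ≤ D * ((C.size : ℝ) * (√(m : ℝ) *
      (6 ^ (2 * n / (Λ + 1) + 1) * (γ⁻¹) ^ n + (C.size : ℝ) * (2 / r) ^ (Λ + 1)))) := by
    calc D * (1 / (4 * m * Real.exp m)) = D / (4 * m * Real.exp m) := by ring
      _ ≤ _ := hfin
      _ = _ := by ring
  exact le_of_mul_le_mul_left hfin2 hDpos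

end Params

end Crest.Agent.R327
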