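import Mathlib

set_option autoImplicit false
set_option linter.unusedSectionVars false

namespace Crest.Agent.R327

theorem two_pow_ge_sq (k : ℕ) (hk : 4 ≤ k) : k ^ 2 ≤ 2 ^ k := by
  induction k, hk using Nat.le_induction with
  | base => norm_num
  | succ k hk ih =>
    rw [pow_succ 2 k]
    nlinarith

set_option maxHeartbeats 4000000 in
theorem numeric (n : ℕ) (hn : 16 ≤ n) (hl : 1000 ≤ Real.log n) :
    ∃ γ r : ℝ, 1 ≤ γ ∧ 2 ≤ r ∧ r ^ 2 = (Nat.sqrt n : ℝ) ^ 2 / ((Nat.sqrt n : ℝ) + Nat.log 2 n) ∧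
      (γ ^ 2 * r) ^ 2 = (Nat.sqrt n : ℝ) ∧ γ ^ (2 * (Nat.sqrt n / 4)) ≤ r ∧
      ∀ s : ℝ, 1 ≤ s →
        1 / (4 * (Nat.sqrt n : ℝ) * Real.exp (Nat.sqrt n)) ≤
          s * (√(Nat.sqrt n : ℝ) * (6 ^ (2 * n / (Nat.sqrt n / 4 + 1) + 1) * (γ⁻¹) ^ n +
            s * (2 / r) ^ (Nat.sqrt n / 4 + 1))) →
        (n : ℝ) ^ (Real.sqrt n / 400) ≤ s := by
  set m := Nat.sqrt n with hm
  set L := Nat.log 2 n with hL
  set Λ := m / 4 with hΛ
  have hn0 : (0 : ℝ) < n := by exact_mod_cast (by omega : 0 < n)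
  -- basic facts on m
  have hm1 : m ^ 2 ≤ n := Nat.sqrt_le' n
  have hm2 : n < (m + 1) ^ 2 := Nat.lt_succ_sqrt' n
  have hm4 : 4 ≤ m := by
    rw [hm, Nat.le_sqrt']; omega
  have hm1R : (m : ℝ) ^ 2 ≤ n := by exact_mod_cast hm1
  have hm2R : (n : ℝ) < ((m : ℝ) + 1) ^ 2 := by exact_mod_cast hm2
  have hm4R : (4 : ℝ) ≤ m := by exact_mod_cast hm4
  have hm0 : (0 : ℝ) < m := by linarith
  -- facts on L
  have hL1 : 2 ^ L ≤ n := Nat.pow_log_le_self 2 (by omega)
  have hL2 : n < 2 ^ (L + 1) := Nat.lt_pow_succ_log_self (by norm_num) n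
  have hL1R : (2 : ℝ) ^ L ≤ n := by exact_mod_cast hL1
  have hL2R : (n : ℝ) < (2 : ℝ) ^ (L + 1) := by exact_mod_cast hL2
  have hLm : L ≤ m := by
    by_contra h
    push Not at h
    have h1 : 2 ^ (m + 1) ≤ 2 ^ L := Nat.pow_le_pow_right (by norm_num) h
    have h2 := two_pow_ge_sq (m + 1) (by omega)
    omega
  have hLmR : (L : ℝ) ≤ m := by exact_mod_cast hLm
  have hL0R : (0 : ℝ) ≤ L := Nat.cast_nonneg _
  have hlog2a := Real.log_two_gt_d9
  have hlog2b := Real.log_two_lt_d9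
  set ℓ := Real.log n with hℓ
  have hl1 : (L : ℝ) * Real.log 2 ≤ ℓ := by
    rw [← Real.log_pow]
    exact Real.log_le_log (by positivity) hL1R
  have hl2 : ℓ ≤ ((L : ℝ) + 1) * Real.log 2 := by
    have := Real.log_le_log hn0 hL2R.le
    rw [Real.log_pow] at this
    push_cast at this
    exact this
  set lam := Real.log m with hlam
  have hLup : (L : ℝ) * 0.693 ≤ ℓ := by
    have := mul_le_mul_of_nonneg_left hlog2a.le hL0R
    linarith only [this, hl1, hL0R]
  have hLlo : 1.4 * ℓ - 1 ≤ L := by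
    have := mul_le_mul_of_nonneg_left hlog2b.le (by linarith : (0 : ℝ) ≤ (L : ℝ) + 1)
    linarith only [this, hl2, hL0R]
  have hlam1 : ℓ ≤ 2 * (Real.log 2 + lam) := by
    have h1 : (n : ℝ) ≤ (2 * m) ^ 2 := by nlinarith only [hm2R, hm4R]
    have h2 := Real.log_le_log hn0 h1
    rw [Real.log_pow, Real.log_mul (by norm_num) hm0.ne'] at h2
    push_cast at h2
    exact h2
  -- rho, kappa
  have hden : 0 < (m : ℝ) + L := by linarith
  set ρ := (m : ℝ) ^ 2 / ((m : ℝ) + L) with hρ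
  set κ := ((m : ℝ) + L) / m with hκ
  have hρ0 : 0 < ρ := by positivity
  have hκ1 : 1 ≤ κ := by
    rw [hκ, le_div_iff₀ hm0]; linarith
  have hκ0 : 0 < κ := by linarith
  have hρm : (m : ℝ) / 2 ≤ ρ := by
    rw [hρ, div_le_div_iff₀ (by norm_num) hden]
    nlinarith only [hLmR, hm0]
  have hκρ : κ * ρ = m := by
    rw [hκ, hρ]; field_simp
  have hlogρ : lam - Real.log 2 ≤ Real.log ρ := by
    rw [hlam, ← Real.log_div hm0.ne' (by norm_num)]
    exact Real.log_le_log (by positivity) hρm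
  have hlogκ1 : Real.log κ ≤ L / m := by
    have := Real.log_le_sub_one_of_pos hκ0
    refine this.trans (le_of_eq ?_)
    rw [hκ]; field_simp; ring
  have hlogκ2 : (L : ℝ) / (2 * m) ≤ Real.log κ := by
    have h1 := Real.one_sub_inv_le_log_of_pos hκ0
    refine le_trans ?_ h1
    have : 1 - κ⁻¹ = L / ((m : ℝ) + L) := by
      rw [hκ]; field_simp; ring
    rw [this]
    apply div_le_div_of_nonneg_left hL0R hden
    linarith
  -- gamma and r
  obtain ⟨r, hr0, hr2⟩ : ∃ r : ℝ, 0 < r ∧ r ^ 2 = ρ :=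
    ⟨√ρ, Real.sqrt_pos.2 hρ0, Real.sq_sqrt hρ0.le⟩
  obtain ⟨γ, hγ1, hγ4⟩ : ∃ γ : ℝ, 1 ≤ γ ∧ γ ^ 4 = κ := by
    refine ⟨√√κ, ?_, ?_⟩
    · rw [Real.one_le_sqrt, Real.one_le_sqrt]; exact hκ1
    · have : √√κ ^ 4 = ((√√κ) ^ 2) ^ 2 := by ring
      rw [this, Real.sq_sqrt (Real.sqrt_nonneg _), Real.sq_sqrt hκ0.le]
  have hγ0 : 0 < γ := by linarith
  have hlogr : Real.log r = Real.log ρ / 2 := by
    rw [← hr2, Real.log_pow]; push_cast; ring
  have hlogγ : Real.log γ = Real.log κ / 4 := by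
    rw [← hγ4, Real.log_pow]; push_cast; ring
  have hΛ1 : (Λ : ℝ) ≤ m / 4 := Nat.cast_div_le
  have hΛ2 : (m : ℝ) / 4 ≤ (Λ : ℝ) + 1 := by
    have : m ≤ 4 * (Λ + 1) := by omega
    have : (m : ℝ) ≤ 4 * ((Λ : ℝ) + 1) := by exact_mod_cast this
    linarith
  have hr : 2 ≤ r := by
    have h1 : Real.log 2 ≤ Real.log r := by
      rw [hlogr]; linarith
    exact (Real.log_le_log_iff (by norm_num) hr0).1 h1
  refine ⟨γ, r, hγ1, hr, hr2, ?_, ?_, ?_⟩
  · have : (γ ^ 2 * r) ^ 2 = γ ^ 4 * r ^ 2 := by ring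
    rw [this, hγ4, hr2, hκρ]
  · rw [← Real.log_le_log_iff (by positivity) hr0, Real.log_pow, hlogr, hlogγ]
    push_cast
    have h1 : (Λ : ℝ) * Real.log κ ≤ L / 4 := by
      have hlk0 : 0 ≤ Real.log κ := Real.log_nonneg hκ1
      calc (Λ : ℝ) * Real.log κ ≤ (m / 4) * (L / m) :=
            mul_le_mul hΛ1 hlogκ1 hlk0 (by positivity)
        _ = L / 4 := by field_simp
    have h2 : (L : ℝ) / 4 ≤ lam - Real.log 2 := by
      linarith only [hLup, hlam1, hl, hlog2b]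
    linarith only [h1, h2, hlogρ]
  · intro s hs hineq
    by_contra hcon
    push Not at hcon
    have hs0 : 0 < s := by linarith
    have hsqrt : √(n : ℝ) ≤ m + 1 := by
      rw [Real.sqrt_le_left (by positivity)]
      exact hm2R.le
    have hslog : Real.log s ≤ ℓ * (m + 1) / 400 := by
      have h1 : Real.log s ≤ Real.log ((n : ℝ) ^ (√(n : ℝ) / 400)) :=
        Real.log_le_log hs0 hcon.le
      rw [Real.log_rpow hn0] at h1
      refine h1.trans ?_
      have : √(n : ℝ) / 400 * ℓ ≤ (m + 1) / 400 * ℓ := by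
        apply mul_le_mul_of_nonneg_right _ (by linarith)
        linarith
      linarith
    have hs_exp : s ≤ Real.exp (ℓ * (m + 1) / 400) := by
      rw [← Real.exp_log hs0]
      exact Real.exp_le_exp.2 hslog
    have hmexp : (m : ℝ) ≤ Real.exp m := by
      have := Real.add_one_le_exp (m : ℝ)
      linarith
    have hsqm : √(m : ℝ) ≤ Real.exp m := by
      have h1 : √(m : ℝ) ≤ m := by
        rw [Real.sqrt_le_left hm0.le]
        nlinarith only [hm4R]
      linarith only [h1, hmexp]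
    have he2 : (6 : ℝ) ≤ Real.exp 2 := by
      have h1 := Real.exp_one_gt_d9
      have h2 : Real.exp 2 = Real.exp 1 * Real.exp 1 := by
        rw [← Real.exp_add]; norm_num
      rw [h2]
      nlinarith only [h1]
    have he3 : (8 : ℝ) < Real.exp 3 := by
      have h1 := Real.exp_one_gt_d9
      have h2 : Real.exp 3 = Real.exp 2 * Real.exp 1 := by
        rw [← Real.exp_add]; norm_num
      rw [h2]
      nlinarith only [h1, he2]
    -- first term
    have h6 : (6 : ℝ) ^ (2 * n / (Λ + 1) + 1) ≤ Real.exp (2 * (8 * m + 25)) := by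
      have h1 : 2 * n / (Λ + 1) + 1 ≤ 8 * m + 25 := by
        have h2 : 2 * n / (Λ + 1) ≤ 8 * m + 24 := by
          apply Nat.div_le_of_le_mul
          have h3 : m + 1 ≤ 4 * (Λ + 1) := by omega
          nlinarith only [h3, hm2]
        omega
      calc (6 : ℝ) ^ (2 * n / (Λ + 1) + 1) ≤ 6 ^ (8 * m + 25) :=
            pow_le_pow_right₀ (by norm_num) h1
        _ ≤ (Real.exp 2) ^ (8 * m + 25) := pow_le_pow_left₀ (by norm_num) he2 _
        _ = Real.exp (2 * (8 * m + 25)) := by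
            rw [← Real.exp_nat_mul]; congr 1; push_cast; ring
    have hγn : (γ⁻¹) ^ n ≤ Real.exp (-(m * L / 8)) := by
      rw [← Real.log_le_iff_le_exp (by positivity), Real.log_pow, Real.log_inv, hlogγ]
      have h1 : (m : ℝ) ^ 2 * (L / (2 * m)) ≤ n * Real.log κ :=
        mul_le_mul hm1R hlogκ2 (by positivity) hn0.le
      have h2 : (m : ℝ) ^ 2 * (L / (2 * m)) = m * L / 2 := by field_simp
      rw [h2] at h1
      linarith
    have hT2 : (2 / r) ^ (Λ + 1) ≤ Real.exp ((m / 4) * (3 / 2 * Real.log 2 - lam / 2)) := by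
      rw [← Real.log_le_iff_le_exp (by positivity), Real.log_pow,
        Real.log_div (by norm_num) hr0.ne', hlogr]
      push_cast
      have h1 : Real.log 2 - Real.log ρ / 2 ≤ 3 / 2 * Real.log 2 - lam / 2 := by linarith
      have h2 : 3 / 2 * Real.log 2 - lam / 2 ≤ 0 := by linarith
      calc ((Λ : ℝ) + 1) * (Real.log 2 - Real.log ρ / 2)
          ≤ ((Λ : ℝ) + 1) * (3 / 2 * Real.log 2 - lam / 2) :=
            mul_le_mul_of_nonneg_left h1 (by positivity)
        _ ≤ (m / 4) * (3 / 2 * Real.log 2 - lam / 2) :=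
            mul_le_mul_of_nonpos_right hΛ2 h2
    -- product bounds
    have hA : 8 * (m : ℝ) * Real.exp m * (s * (√(m : ℝ) *
        (6 ^ (2 * n / (Λ + 1) + 1) * (γ⁻¹) ^ n))) < 1 := by
      have h1 : 8 * (m : ℝ) * Real.exp m * (s * (√(m : ℝ) *
          (6 ^ (2 * n / (Λ + 1) + 1) * (γ⁻¹) ^ n))) ≤
          Real.exp 3 * Real.exp m * Real.exp m * (Real.exp (ℓ * (m + 1) / 400) * (Real.exp m *
            (Real.exp (2 * (8 * m + 25)) * Real.exp (-(m * L / 8))))) := by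
        gcongr
      refine lt_of_le_of_lt h1 ?_
      rw [← Real.exp_add, ← Real.exp_add, ← Real.exp_add, ← Real.exp_add, ← Real.exp_add,
        ← Real.exp_add, Real.exp_lt_one_iff]
      have h3 : (m : ℝ) * (1.4 * ℓ - 1) ≤ m * L := mul_le_mul_of_nonneg_left hLlo hm0.le
      have h4 : (m : ℝ) * 1000 ≤ m * ℓ := mul_le_mul_of_nonneg_left hl hm0.le
      have h5 : 4 * ℓ ≤ m * ℓ := mul_le_mul_of_nonneg_right hm4R (by linarith only [hl])
      linarith only [h3, h4, h5, hm4R, hl]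
    have hB : 8 * (m : ℝ) * Real.exp m * (s * (√(m : ℝ) * (s * (2 / r) ^ (Λ + 1)))) < 1 := by
      have h1 : 8 * (m : ℝ) * Real.exp m * (s * (√(m : ℝ) * (s * (2 / r) ^ (Λ + 1)))) ≤
          Real.exp 3 * Real.exp m * Real.exp m * (Real.exp (ℓ * (m + 1) / 400) * (Real.exp m *
            (Real.exp (ℓ * (m + 1) / 400) *
              Real.exp ((m / 4) * (3 / 2 * Real.log 2 - lam / 2))))) := by
        gcongr
      refine lt_of_le_of_lt h1 ?_
      rw [← Real.exp_add, ← Real.exp_add, ← Real.exp_add, ← Real.exp_add, ← Real.exp_add,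
        ← Real.exp_add, Real.exp_lt_one_iff]
      have h2 : 3 / 2 * Real.log 2 - lam / 2 ≤ 1.5 - ℓ / 4 := by
        linarith
      have h3 : (m : ℝ) / 4 * (3 / 2 * Real.log 2 - lam / 2) ≤ m / 4 * (1.5 - ℓ / 4) :=
        mul_le_mul_of_nonneg_left h2 (by positivity)
      have h4 : (m : ℝ) * 1000 ≤ m * ℓ := mul_le_mul_of_nonneg_left hl hm0.le
      have h5 : 4 * ℓ ≤ m * ℓ := mul_le_mul_of_nonneg_right hm4R (by linarith only [hl])
      linarith only [h3, h4, h5, hm4R, hl]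
    have hpos : 0 < 4 * (m : ℝ) * Real.exp m := by positivity
    rw [div_le_iff₀ hpos] at hineq
    linarith only [hineq, hA, hB]

theorem exists_threshold : ∃ n₀ : ℕ, ∀ n ≥ n₀, 16 ≤ n ∧ 1000 ≤ Real.log n := by
  refine ⟨max 16 ⌈Real.exp 1000⌉₊, fun n hn => ⟨le_trans (le_max_left _ _) hn, ?_⟩⟩
  have h1 : ⌈Real.exp 1000⌉₊ ≤ n := le_trans (le_max_right _ _) hn
  have h2 : Real.exp 1000 ≤ n := Nat.ceil_le.1 h1
  have h3 : (0 : ℝ) < n := lt_of_lt_of_le (Real.exp_pos _) h2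
  exact (Real.le_log_iff_exp_le h3).2 h2

end Crest.Agent.R327
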